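import Vale.Agent.P092.H729.TAB
import Vale.Agent.P092.H361.TA0

/-!
P092, Project B, Theorem A, block TA-4 (board #3258, #3331): from central atoms at all levels
to commutativity of `QQ`.
-/

set_option linter.unusedSectionVars false

namespace Vale.Agent.P092.H878

open scoped InnerProductSpace
open Vale.Agent.P092.H432.TA Vale.Agent.P092.H729

variable {H : Type*} [NormedAddCommGroup H] [InnerProductSpace ℂ H] [CompleteSpace H]
variable {A B : Type*} [Group A] [Group B]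
variable {S : A →* (H →L[ℂ] H)} {R : B →* (H →L[ℂ] H)} {W : Set (H →L[ℂ] H)}
variable {cA : Set (Subgroup A)} {cB : Set (Subgroup B)}

/-! ### conjugates of subgroups -/

theorem map_conj_mem (hA : GIn cA) {U : Subgroup A} (hU : U ∈ cA) (a : A) :
    U.map (MulAut.conj a).toMonoidHom ∈ cA := by
  obtain ⟨V, hV, h⟩ := hA.conj U hU a
  have : U.map (MulAut.conj a).toMonoidHom = V := by
    ext x
    rw [h x]
    constructor
    · rintro ⟨u, hu, rfl⟩
      have : a⁻¹ * (MulAut.conj a).toMonoidHom u * a = u := by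
        simp [MulAut.conj_apply, mul_assoc]
      rw [this]; exact hu
    · intro hx
      refine ⟨a⁻¹ * x * a, hx, ?_⟩
      simp [MulAut.conj_apply, mul_assoc]
  rw [this]; exact hV

theorem mem_map_conj {U : Subgroup A} {a x : A} :
    x ∈ U.map (MulAut.conj a).toMonoidHom ↔ a⁻¹ * x * a ∈ U := by
  constructor
  · rintro ⟨u, hu, rfl⟩
    have : a⁻¹ * (MulAut.conj a).toMonoidHom u * a = u := by
      simp [MulAut.conj_apply, mul_assoc]
    rw [this]; exact hu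
  · intro hx
    refine ⟨a⁻¹ * x * a, hx, ?_⟩
    simp [MulAut.conj_apply, mul_assoc]

/-! ### closure properties of `QV` and `QQ` -/

theorem qv_one (hA : GIn cA) {V : Subgroup B} : (1 : H →L[ℂ] H) ∈ QV S R W cA V := by
  obtain ⟨U, hU⟩ := hA.ne
  exact ⟨U, hU, Q_one⟩

theorem qv_mul (hA : GIn cA) {V : Subgroup B} {x y : H →L[ℂ] H} (hx : x ∈ QV S R W cA V)
    (hy : y ∈ QV S R W cA V) : x * y ∈ QV S R W cA V := by
  obtain ⟨U, hU, hx⟩ := hx
  obtain ⟨U', hU', hy⟩ := hy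
  exact ⟨U ⊓ U', hA.inf U hU U' hU', Q_mul (Q_mono inf_le_left le_rfl hx)
    (Q_mono inf_le_right le_rfl hy)⟩

theorem qv_star (h : Sys S R W) {V : Subgroup B} {x : H →L[ℂ] H} (hx : x ∈ QV S R W cA V) :
    star x ∈ QV S R W cA V := by
  obtain ⟨U, hU, hx⟩ := hx
  exact ⟨U, hU, Q_star h hx⟩

theorem qv_mono {V V' : Subgroup B} (hV : V' ≤ V) : QV S R W cA V ⊆ QV S R W cA V' := by
  rintro x ⟨U, hU, hx⟩
  exact ⟨U, hU, Q_mono le_rfl hV hx⟩

theorem qv_cjS (h : Sys S R W) (hA : GIn cA) {V : Subgroup B} {x : H →L[ℂ] H}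
    (hx : x ∈ QV S R W cA V) (a : A) : cj S a x ∈ QV S R W cA V := by
  obtain ⟨U, hU, hx⟩ := hx
  exact ⟨_, map_conj_mem hA hU a, cjS_mem h hx a⟩

theorem qv_cjR (h : Sys S R W) {V : Subgroup B} {b : B} (hb : ∀ x ∈ V, b⁻¹ * x * b ∈ V)
    {x : H →L[ℂ] H} (hx : x ∈ QV S R W cA V) : cj R b x ∈ QV S R W cA V := by
  obtain ⟨U, hU, hx⟩ := hx
  refine ⟨U, hU, Q_mono le_rfl ?_ (cjR_mem h hx b)⟩
  intro x hx
  exact mem_map_conj.2 (hb x hx)

theorem qq_of_qv {V : Subgroup B} (hV : V ∈ cB) {x : H →L[ℂ] H} (hx : x ∈ QV S R W cA V) :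
    x ∈ QQ S R W cA cB := by
  obtain ⟨U, hU, hx⟩ := hx
  exact ⟨U, hU, V, hV, hx⟩

theorem qq_cjS (h : Sys S R W) (hA : GIn cA) {x : H →L[ℂ] H}
    (hx : x ∈ QQ S R W cA cB) (a : A) : cj S a x ∈ QQ S R W cA cB := by
  obtain ⟨U, hU, V, hV, hx⟩ := hx
  exact ⟨_, map_conj_mem hA hU a, V, hV, cjS_mem h hx a⟩

theorem qq_cjR (h : Sys S R W) (hB : GIn cB) {x : H →L[ℂ] H}
    (hx : x ∈ QQ S R W cA cB) (b : B) : cj R b x ∈ QQ S R W cA cB := by
  obtain ⟨U, hU, V, hV, hx⟩ := hx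
  exact ⟨U, hU, _, map_conj_mem hB hV b, cjR_mem h hx b⟩

/-- conjugates of elements commuting with an invariant set -/
theorem comm_cj {X : Set (H →L[ℂ] H)} {G : Type*} [Group G] {T : G →* (H →L[ℂ] H)} {g : G}
    (hX : ∀ x ∈ X, cj T g⁻¹ x ∈ X) {c : H →L[ℂ] H} (hc : ∀ x ∈ X, x * c = c * x) :
    ∀ x ∈ X, x * cj T g c = cj T g c * x := by
  intro x hx
  have h1 := congrArg (cj T g) (hc _ (hX x hx))
  rw [cj_mul, cj_mul, cj_cj_inv] at h1
  exact h1

theorem le_comm {p q : H →L[ℂ] H} (hp : Prj p) (hq : Prj q) (h : p * q = q) : q * p = q := by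
  have hps : star p = p := hp.adj
  have hqs : star q = q := hq.adj
  have := congrArg star h
  rwa [star_mul, hps, hqs] at this

theorem prj_mul_of_comm {p q : H →L[ℂ] H} (hp : Prj p) (hq : Prj q) (h : p * q = q * p) :
    Prj (p * q) := by
  have hps : star p = p := hp.adj
  have hqs : star q = q := hq.adj
  refine ⟨?_, ?_⟩
  · calc p * q * (p * q) = p * (q * p) * q := by simp only [mul_assoc]
      _ = p * p * (q * q) := by rw [← h]; simp only [mul_assoc]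
      _ = p * q := by rw [hp.idem, hq.idem]
  · change star (p * q) = p * q
    rw [star_mul, hps, hqs, h]

/-! ### counting orthogonal projections under an `R`-finite projection -/

theorem qf_prj {p : H →L[ℂ] H} (hp : Prj p) (ξ : H) : H144.qf p ξ = ‖p ξ‖ ^ 2 := by
  have h1 : ⟪p ξ, p ξ⟫_ℂ = ⟪ξ, p ξ⟫_ℂ := by
    have h2 : ⟪(ContinuousLinearMap.adjoint p) ξ, p ξ⟫_ℂ = ⟪ξ, p (p ξ)⟫_ℂ :=
      ContinuousLinearMap.adjoint_inner_left p _ _
    rw [hp.adj] at h2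
    rw [h2]
    have h3 : p (p ξ) = p ξ := congrArg (fun T : H →L[ℂ] H => T ξ) hp.idem
    rw [h3]
  rw [H144.qf, ← h1, inner_self_eq_norm_sq_to_K]
  norm_cast

theorem prj_pos {p : H →L[ℂ] H} (hp : Prj p) : p.IsPositive := by
  have h1 : (ContinuousLinearMap.adjoint p * p).IsPositive :=
    ContinuousLinearMap.isPositive_adjoint_comp_self p
  rwa [hp.adj, hp.idem] at h1

theorem count (h : Sys S R W) (hE : Erg S R W cA cB) {V : Subgroup B} {p : H →L[ℂ] H}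
    {C : ℝ} (hC : ∀ (F : Finset (B ⧸ V)) (ξ : H), ∑ q ∈ F, ‖p (R q.out⁻¹ ξ)‖ ^ 2 ≤ C * ‖ξ‖ ^ 2)
    {N : ℕ} (hN : 0 < N) (f : Fin N → H →L[ℂ] H) (hf : ∀ i, Prj (f i)) (hne : ∀ i, f i ≠ 0)
    (hfQ : ∀ i, f i ∈ QV S R W cA V) (ho : ∀ i j, i ≠ j → f i * f j = 0)
    (hle : ∀ i, f i * p = f i) : (N : ℝ) ≤ C := by
  classical
  -- a unit vector
  obtain ⟨η, hη⟩ : ∃ η, f ⟨0, hN⟩ η ≠ 0 := by
    by_contra hc
    push Not at hc
    exact hne ⟨0, hN⟩ (ContinuousLinearMap.ext hc)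
  obtain ⟨ξ₀, hξ₀⟩ : ∃ ξ₀ : H, ‖ξ₀‖ = 1 := by
    refine ⟨((‖η‖⁻¹ : ℝ) : ℂ) • η, ?_⟩
    have : ‖η‖ ≠ 0 := by
      intro h0
      apply hη
      rw [norm_eq_zero.mp h0, map_zero]
    rw [norm_smul, Complex.norm_real, Real.norm_eq_abs, abs_of_nonneg (by positivity),
      inv_mul_cancel₀ this]
  have hC1 : ∀ F : Finset (B ⧸ V), ∑ q ∈ F, ‖p (R q.out⁻¹ ξ₀)‖ ^ 2 ≤ C := by
    intro F
    have := hC F ξ₀
    rwa [hξ₀, one_pow, mul_one] at this
  have hfp : ∀ i ζ, f i (p ζ) = f i ζ := fun i ζ => congrArg (fun T : H →L[ℂ] H => T ζ) (hle i)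
  have hsum : ∀ ζ, ∑ i, ‖f i ζ‖ ^ 2 ≤ ‖p ζ‖ ^ 2 := by
    intro ζ
    have := bessel (fun i => isp (hf i)) ho (p ζ) Finset.univ
    simpa only [hfp] using this
  have hsingle : ∀ i ζ, ‖f i ζ‖ ^ 2 ≤ ‖p ζ‖ ^ 2 := fun i ζ =>
    (Finset.single_le_sum (f := fun i => ‖f i ζ‖ ^ 2) (fun i _ => sq_nonneg _)
      (Finset.mem_univ i)).trans (hsum ζ)
  have hex : ∀ i, ∃ t : ℝ, 1 ≤ t ∧
      HasSum (fun q : B ⧸ V => ‖f i (R q.out⁻¹ ξ₀)‖ ^ 2) t := by
    intro i
    obtain ⟨U, hU, hQ⟩ := hfQ i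
    obtain ⟨t, _, _, h3, _, _, h6⟩ := H361.ta0 (R := R) (fun b => h.Radj b)
      (V := V) (𝒲 := W ∪ (fun a => S a) '' (U : Set A))
      (by
        rintro w (hw | ⟨a, _, rfl⟩) b
        · exact h.WR w hw b
        · exact h.SR a b)
      (by
        intro T hT hTw
        refine hE.E1 U hU T ⟨fun a ha => hTw _ (Or.inr ⟨a, ha, rfl⟩), fun b _ => hT b,
          fun w hw => hTw w (Or.inl hw)⟩)
      (x := f i) (prj_pos (hf i)) (fun b hb => hQ.2.1 b hb)
      (by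
        rintro w (hw | ⟨a, ha, rfl⟩)
        · exact hQ.2.2 w hw
        · exact hQ.1 a ha) hξ₀ (C := C) (by
          intro F
          refine (Finset.sum_le_sum fun q _ => ?_).trans (hC1 F)
          rw [qf_prj (hf i)]
          exact hsingle i _)
    refine ⟨t, ?_, ?_⟩
    · obtain ⟨η, hη⟩ : ∃ η, f i η ≠ 0 := by
        by_contra hc
        push Not at hc
        exact hne i (ContinuousLinearMap.ext hc)
      have h7 := h6 1 (f i η)
      rw [qf_prj (hf i), map_one] at h7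
      have h8 : f i (f i η) = f i η := congrArg (fun T : H →L[ℂ] H => T η) (hf i).idem
      have h9 : (1 : H →L[ℂ] H) (f i η) = f i η := rfl
      rw [h9, h8] at h7
      have h10 : 0 < ‖f i η‖ ^ 2 := by positivity
      by_contra hlt
      push Not at hlt
      nlinarith
    · have h7 := h3 ξ₀
      simp only [qf_prj (hf i)] at h7
      rwa [hξ₀, one_pow, mul_one] at h7
  choose t ht1 ht2 using hex
  have hall : HasSum (fun q : B ⧸ V => ∑ i, ‖f i (R q.out⁻¹ ξ₀)‖ ^ 2) (∑ i, t i) :=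
    hasSum_sum fun i _ => ht2 i
  have hle2 : ∑ i, t i ≤ C := by
    refine hasSum_le_of_sum_le hall fun F => ?_
    exact (Finset.sum_le_sum fun q _ => hsum _).trans (hC1 F)
  have : (N : ℝ) ≤ ∑ i, t i := by
    calc (N : ℝ) = ∑ _i : Fin N, (1 : ℝ) := by simp
      _ ≤ _ := Finset.sum_le_sum fun i _ => ht1 i
  linarith

/-! ### step (III) -/

/-- stabiliser of an operator under `Ad S` -/
def stab (S : A →* (H →L[ℂ] H)) (e : H →L[ℂ] H) : Subgroup A where
  carrier := {a | S a * e = e * S a}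
  one_mem' := by simp
  mul_mem' := by
    intro a b ha hb
    simp only [Set.mem_ofPred_eq] at ha hb ⊢
    rw [map_mul, mul_assoc, hb, ← mul_assoc, ha, mul_assoc]
  inv_mem' := by
    intro a ha
    simp only [Set.mem_ofPred_eq] at ha ⊢
    calc S a⁻¹ * e = S a⁻¹ * e * (S a * S a⁻¹) := by rw [S_mul_inv, mul_one]
      _ = S a⁻¹ * (e * S a) * S a⁻¹ := by simp only [mul_assoc]
      _ = S a⁻¹ * S a * e * S a⁻¹ := by rw [← ha]; simp only [mul_assoc]
      _ = e * S a⁻¹ := by rw [S_inv_mul, one_mul]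

theorem mem_stab {e : H →L[ℂ] H} {a : A} : a ∈ stab S e ↔ S a * e = e * S a := Iff.rfl

theorem mem_stab' {e : H →L[ℂ] H} {a : A} : a ∈ stab S e ↔ cj S a e = e := cj_eq_iff.symm

section III

variable (h : Sys S R W) (hA : GIn cA) (hE : Erg S R W cA cB)
  {V₀ : Subgroup B} {U₀ : Subgroup A} {z₀ : H →L[ℂ] H}
  (hz : CAtom S R W cA V₀ U₀ z₀)

/-- the projection onto `[𝒬^V z₀ H]` -/
noncomputable abbrev zt (S : A →* (H →L[ℂ] H)) (R : B →* (H →L[ℂ] H)) (W : Set (H →L[ℂ] H))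
    (cA : Set (Subgroup A)) (z₀ : H →L[ℂ] H) (V : Subgroup B) : H →L[ℂ] H :=
  cov (QV S R W cA V) z₀

include h hA hz

theorem zt_Q {V : Subgroup B} (hn : ∀ b ∈ V₀, ∀ x ∈ V, b * x * b⁻¹ ∈ V) :
    zt S R W cA z₀ V ∈ Q S R W U₀ V₀ := by
  have hS : ∀ a, ∀ x ∈ QV S R W cA V, ∃ x' ∈ QV S R W cA V, S a * x = x' * S a := by
    intro a x hx
    refine ⟨cj S a x, qv_cjS h hA hx a, ?_⟩
    rw [cj, mul_assoc, S_inv_mul, mul_one]
  have hR : ∀ b ∈ V₀, ∀ x ∈ QV S R W cA V, ∃ x' ∈ QV S R W cA V, R b * x = x' * R b := by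
    intro b hb x hx
    refine ⟨cj R b x, qv_cjR h (fun y hy => ?_) hx, ?_⟩
    · have := hn b⁻¹ (V₀.inv_mem hb) y hy
      rwa [inv_inv] at this
    · rw [cj, mul_assoc, S_inv_mul, mul_one]
  refine ⟨fun a ha => ?_, fun b hb => ?_, fun w hw => ?_⟩
  · refine cov_comm_norm (hS a) ?_ (hz.mem.1 a ha) ?_
    · rw [sadj h]; exact hS a⁻¹
    · rw [sadj h]; exact hz.mem.1 _ (U₀.inv_mem ha)
  · refine cov_comm_norm (hR b hb) ?_ (hz.mem.2.1 b hb) ?_
    · rw [radj h]; exact hR b⁻¹ (V₀.inv_mem hb)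
    · rw [radj h]; exact hz.mem.2.1 _ (V₀.inv_mem hb)
  · refine cov_comm_norm ?_ ?_ (hz.mem.2.2 w hw) (hz.mem.2.2 _ (wadj h hw))
    · rintro x ⟨U, hU, hx⟩
      exact ⟨x, ⟨U, hU, hx⟩, hx.2.2 w hw⟩
    · rintro x ⟨U, hU, hx⟩
      exact ⟨x, ⟨U, hU, hx⟩, hx.2.2 _ (wadj h hw)⟩

omit hz in
theorem zt_comm {V : Subgroup B} : ∀ x ∈ QV S R W cA V,
    x * zt S R W cA z₀ V = zt S R W cA z₀ V * x := fun _ hx =>
  cov_comm_mem (fun _ hx _ hy => qv_mul hA hx hy) (fun _ hx => qv_star h hx) hx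

omit h in
theorem zt_ne {V : Subgroup B} : zt S R W cA z₀ V ≠ 0 := cov_ne_zero (qv_one hA) hz.ne

omit h hA in
theorem zt_dich {V : Subgroup B} (hV : V ≤ V₀) {c : H →L[ℂ] H} (hc : Prj c)
    (hcm : c ∈ QV S R W cA V₀) (hcc : ∀ x ∈ QV S R W cA V, x * c = c * x) :
    c * zt S R W cA z₀ V = zt S R W cA z₀ V ∨ c * zt S R W cA z₀ V = 0 := by
  rcases hz.atom c hcm hc (fun x hx => hcc x (qv_mono hV hx)) with h1 | h1
  · exact Or.inl (cov_le hcc h1)
  · exact Or.inr (cov_zero hcc h1)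

include hE in
theorem zt_ne_one {V : Subgroup B} (hV : V ≤ V₀) {U₁ : Subgroup A} {z₁ : H →L[ℂ] H}
    (hz1 : CAtom S R W cA V U₁ z₁) : zt S R W cA z₀ V ≠ 1 := by
  intro hone
  obtain ⟨C, hC⟩ := hz1.rfin
  have hinf : Infinite (A ⧸ U₀) := by
    have := hA.inf_index U₀ hz.U_mem
    rwa [Subgroup.index_eq_zero_iff_infinite] at this
  have key : ∀ N : ℕ, 0 < N → (N : ℝ) ≤ C := by
    intro N hN
    let g : Fin N → A ⧸ U₀ := fun i => Infinite.natEmbedding (A ⧸ U₀) i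
    have hg : ∀ i j, i ≠ j → g i ≠ g j := by
      intro i j hij h
      exact hij (Fin.ext ((Infinite.natEmbedding (A ⧸ U₀)).injective h))
    have hzQ : ∀ s : A, cj S s z₀ ∈ QV S R W cA V := fun s =>
      qv_mono hV (qv_cjS h hA ⟨U₀, hz.U_mem, hz.mem⟩ s)
    have hcomm : ∀ s : A, cj S s z₀ * z₁ = z₁ * cj S s z₀ := fun s => hz1.comm _ (hzQ s)
    refine count h hE (V := V) (p := z₁) hC hN (fun i => z₁ * cj S (g i).out z₀) ?_ ?_ ?_ ?_ ?_
    · intro i
      exact prj_mul_of_comm hz1.prj (cj_prj h _ hz.prj) (hcomm _).symm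
    · intro i h0
      have h1 := congrArg (cj S (g i).out⁻¹) h0
      rw [cj_mul, cj_inv_cj, cj_zero] at h1
      have h2 : cj S (g i).out⁻¹ z₁ * zt S R W cA z₀ V = 0 :=
        cov_zero (comm_cj (fun x hx => by rw [inv_inv]; exact qv_cjS h hA hx _) hz1.comm) h1
      rw [hone, mul_one, cj_eq_zero] at h2
      exact hz1.ne h2
    · intro i
      exact qv_mul hA ⟨U₁, hz1.U_mem, hz1.mem⟩ (hzQ _)
    · intro i j hij
      have := trans_orth (S := S) (e := z₀) hz.sep (hg i j hij)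
      calc z₁ * cj S (g i).out z₀ * (z₁ * cj S (g j).out z₀)
          = z₁ * (cj S (g i).out z₀ * z₁) * cj S (g j).out z₀ := by simp only [mul_assoc]
        _ = z₁ * z₁ * (cj S (g i).out z₀ * cj S (g j).out z₀) := by
            rw [hcomm]; simp only [mul_assoc]
        _ = 0 := by rw [this, mul_zero]
    · intro i
      calc z₁ * cj S (g i).out z₀ * z₁ = z₁ * z₁ * cj S (g i).out z₀ := by
            rw [mul_assoc, hcomm, mul_assoc]
        _ = _ := by rw [hz1.prj.idem]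
  obtain ⟨n, hn⟩ := exists_nat_gt C
  have := key (n + 1) (Nat.succ_pos n)
  push_cast at this
  linarith

include hE in
/-- the source stabiliser of `ζ_V` is in `cA` and its translates are orthogonal -/
theorem zt_stab {V : Subgroup B} (hV0 : V₀ ∈ cB) (hV : V ≤ V₀)
    (hn : ∀ b ∈ V₀, ∀ x ∈ V, b * x * b⁻¹ ∈ V) (h1 : zt S R W cA z₀ V ≠ 1) :
    stab S (zt S R W cA z₀ V) ∈ cA ∧
      ∀ a, a ∉ stab S (zt S R W cA z₀ V) →
        zt S R W cA z₀ V * cj S a (zt S R W cA z₀ V) = 0 := by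
  have hQ := zt_Q h hA hz hn
  constructor
  · have hle : U₀ ≤ stab S (zt S R W cA z₀ V) := fun a ha => hQ.1 a ha
    rcases hA.g1 _ ⟨U₀, hz.U_mem, hle⟩ with h2 | h2
    · exact h2
    · exfalso
      obtain ⟨c, hc⟩ := hE.E2 V₀ hV0 (zt S R W cA z₀ V)
        ⟨fun a _ => by
          have : a ∈ stab S (zt S R W cA z₀ V) := by rw [h2]; exact Subgroup.mem_top a
          exact this, hQ.2.1, hQ.2.2⟩
      have hid : zt S R W cA z₀ V * zt S R W cA z₀ V = zt S R W cA z₀ V := cov_prj.idem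
      have hne := zt_ne hA hz (V := V)
      have h3 : zt S R W cA z₀ V * zt S R W cA z₀ V = c • zt S R W cA z₀ V := by
        nth_rewrite 1 [hc]
        rw [smul_mul_assoc, one_mul]
      rw [hid] at h3
      have h4 : (c - 1) • zt S R W cA z₀ V = 0 := by rw [sub_smul, one_smul, ← h3, sub_self]
      have h5 : c = 1 := sub_eq_zero.1 ((smul_eq_zero.1 h4).resolve_right hne)
      rw [h5, one_smul] at hc
      exact h1 hc
  · intro a ha
    have hinv : ∀ s : A, ∀ x ∈ QV S R W cA V, x * cj S s (zt S R W cA z₀ V) =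
        cj S s (zt S R W cA z₀ V) * x := fun s =>
      comm_cj (fun x hx => qv_cjS h hA hx _) (zt_comm h hA)
    have hmem : ∀ s : A, cj S s (zt S R W cA z₀ V) ∈ QV S R W cA V₀ := fun s =>
      qv_cjS h hA ⟨U₀, hz.U_mem, hQ⟩ s
    have hcom : cj S a (zt S R W cA z₀ V) * zt S R W cA z₀ V =
        zt S R W cA z₀ V * cj S a (zt S R W cA z₀ V) :=
      zt_comm h hA _ (qv_mono hV (hmem a))
    rcases zt_dich hz hV (cj_prj h a cov_prj) (hmem a) (hinv a) with h2 | h2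
    · rcases zt_dich hz hV (cj_prj h a⁻¹ cov_prj) (hmem a⁻¹) (hinv a⁻¹) with h3 | h3
      · exfalso
        apply ha
        rw [mem_stab']
        have h4 := congrArg (cj S a) h3
        rw [cj_mul, cj_cj_inv] at h4
        rw [← h4, ← hcom, h2]
      · have h4 := congrArg (cj S a) h3
        rw [cj_mul, cj_cj_inv, cj_zero] at h4
        exact h4
    · rw [← hcom, h2]

omit h hA hz in
theorem zt_mono {V V' : Subgroup B} (hV : V' ≤ V) :
    zt S R W cA z₀ V' * zt S R W cA z₀ V = zt S R W cA z₀ V := by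
  have := mul_cov_eq (X := QV S R W cA V) (e := z₀) (T := zt S R W cA z₀ V') (T' := 1)
    (fun x hx => by
      rw [one_mul, mul_assoc]
      exact cov_mul (qv_mono hV hx))
  rwa [one_mul] at this

end III

/-- properties of the central projections of `𝒬` used in step (IV) -/
structure Cen (S : A →* (H →L[ℂ] H)) (R : B →* (H →L[ℂ] H)) (W : Set (H →L[ℂ] H))
    (cA : Set (Subgroup A)) (cB : Set (Subgroup B)) (K : Subgroup A) (e : H →L[ℂ] H) : Prop where
  K_mem : K ∈ cA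
  prj : Prj e
  ne : e ≠ 0
  mem : ∃ V ∈ cB, e ∈ Q S R W K V
  comm : ∀ x ∈ QQ S R W cA cB, x * e = e * x
  sep : ∀ a, a ∉ K → e * cj S a e = 0

theorem Cen.qq {K : Subgroup A} {e : H →L[ℂ] H} (he : Cen S R W cA cB K e) :
    e ∈ QQ S R W cA cB := by
  obtain ⟨V, hV, h⟩ := he.mem
  exact ⟨K, he.K_mem, V, hV, h⟩

theorem exists_cen (h : Sys S R W) (hA : GIn cA) (hB : GIn cB) (hE : Erg S R W cA cB)
    {V₀ : Subgroup B} (hV0 : V₀ ∈ cB)
    (hcat : ∀ V ∈ cB, V ≤ V₀ → ∃ U z, CAtom S R W cA V U z) :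
    ∃ K e, Cen S R W cA cB K e := by
  obtain ⟨U₀, z₀, hz⟩ := hcat V₀ hV0 le_rfl
  obtain ⟨f, hf0, hanti, hfc, hfn, hcof⟩ := hB.seq V₀ hV0
  have hle : ∀ j, f j ≤ V₀ := fun j => hf0 ▸ hanti (Nat.zero_le j)
  have hne1 : ∀ j, zt S R W cA z₀ (f j) ≠ 1 := by
    intro j
    obtain ⟨U₁, z₁, hz1⟩ := hcat (f j) (hfc j) (hle j)
    exact zt_ne_one h hA hE hz (hle j) hz1
  have hst : ∀ j, _ := fun j => zt_stab h hA hE hz hV0 (hle j) (hfn j) (hne1 j)
  have hmono : Monotone fun j => stab S (zt S R W cA z₀ (f j)) := by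
    intro i j hij a ha
    by_contra hcon
    have h1 := (hst j).2 a hcon
    have ha' : cj S a (zt S R W cA z₀ (f i)) = zt S R W cA z₀ (f i) := mem_stab'.1 ha
    have h2 : zt S R W cA z₀ (f j) * zt S R W cA z₀ (f i) = zt S R W cA z₀ (f i) :=
      zt_mono (hanti hij)
    have h3 : zt S R W cA z₀ (f i) * zt S R W cA z₀ (f j) = zt S R W cA z₀ (f i) :=
      le_comm cov_prj cov_prj h2
    apply zt_ne hA hz (V := f i)
    calc zt S R W cA z₀ (f i) = zt S R W cA z₀ (f i) * zt S R W cA z₀ (f i) :=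
          cov_prj.idem.symm
      _ = zt S R W cA z₀ (f i) * cj S a (zt S R W cA z₀ (f i)) := by rw [ha']
      _ = (zt S R W cA z₀ (f i) * zt S R W cA z₀ (f j)) *
            (cj S a (zt S R W cA z₀ (f j)) * cj S a (zt S R W cA z₀ (f i))) := by
            rw [h3, ← cj_mul, h2]
      _ = zt S R W cA z₀ (f i) * (zt S R W cA z₀ (f j) * cj S a (zt S R W cA z₀ (f j))) *
            cj S a (zt S R W cA z₀ (f i)) := by simp only [mul_assoc]
      _ = 0 := by rw [h1, mul_zero, zero_mul]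
  obtain ⟨m, hm⟩ := hA.g3 _ hmono (fun j => (hst j).1)
  have heq : ∀ j, m ≤ j → zt S R W cA z₀ (f j) = zt S R W cA z₀ (f m) := by
    intro j hj
    have hs : stab S (zt S R W cA z₀ (f j)) = stab S (zt S R W cA z₀ (f m)) := hm j hj
    have hQj := zt_Q h hA hz (hfn j)
    have hQm := zt_Q h hA hz (hfn m)
    obtain ⟨c, hc⟩ := trick h (hE.E2 V₀ hV0) (e := zt S R W cA z₀ (f j))
      (L := stab S (zt S R W cA z₀ (f j))) cov_prj
      ⟨fun a ha => ha, hQj.2.1, hQj.2.2⟩ (hst j).2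
      (y := zt S R W cA z₀ (f m)) ⟨fun a ha => by rw [hs] at ha; exact ha, hQm.2.1, hQm.2.2⟩
    have h2 : zt S R W cA z₀ (f j) * zt S R W cA z₀ (f m) = zt S R W cA z₀ (f m) :=
      zt_mono (hanti hj)
    have h3 : zt S R W cA z₀ (f m) * zt S R W cA z₀ (f j) = zt S R W cA z₀ (f m) :=
      le_comm cov_prj cov_prj h2
    rw [h2, h3] at hc
    -- ζ_m = c • ζ_j
    have h4 : zt S R W cA z₀ (f m) = c • zt S R W cA z₀ (f m) := by
      calc zt S R W cA z₀ (f m) = zt S R W cA z₀ (f m) * zt S R W cA z₀ (f m) :=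
            cov_prj.idem.symm
        _ = (c • zt S R W cA z₀ (f j)) * zt S R W cA z₀ (f m) := by rw [← hc]
        _ = c • zt S R W cA z₀ (f m) := by rw [smul_mul_assoc, h2]
    have h5 : (c - 1) • zt S R W cA z₀ (f m) = 0 := by
      rw [sub_smul, one_smul, ← h4, sub_self]
    have h6 : c = 1 := sub_eq_zero.1 ((smul_eq_zero.1 h5).resolve_right (zt_ne hA hz))
    rw [h6, one_smul] at hc
    exact hc.symm
  refine ⟨stab S (zt S R W cA z₀ (f m)), zt S R W cA z₀ (f m), (hst m).1, cov_prj,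
    zt_ne hA hz, ⟨V₀, hV0, ?_⟩, ?_, (hst m).2⟩
  · have hQm := zt_Q h hA hz (hfn m)
    exact ⟨fun a ha => ha, hQm.2.1, hQm.2.2⟩
  · rintro x ⟨U, hU, V, hV, hx⟩
    obtain ⟨j, hj⟩ := hcof V hV
    have h1 : f (max j m) ≤ V := (hanti (le_max_left j m)).trans hj
    have h2 : x ∈ QV S R W cA (f (max j m)) := ⟨U, hU, Q_mono le_rfl h1 hx⟩
    have h3 := zt_comm h hA (z₀ := z₀) x h2
    rwa [heq _ (le_max_right j m)] at h3

/-! ### step (IV) -/

/-- the join of the `R`-translates of a nonzero projection is `1` -/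
theorem joinR (h : Sys S R W) (hA : GIn cA) (hE : Erg S R W cA cB) {U : Subgroup A} (hU : U ∈ cA)
    {V : Subgroup B} {g : H →L[ℂ] H} (hg : g ∈ Q S R W U V) (hg0 : g ≠ 0)
    {y : H →L[ℂ] H} (hy : ∀ b, y * (R b * g) = 0) : y = 0 := by
  have hX1 : (1 : H →L[ℂ] H) ∈ Set.range (fun b => R b) := ⟨1, map_one R⟩
  have hQ : cov (Set.range fun b => R b) g ∈ Q S R W U ⊤ := by
    refine ⟨fun a ha => ?_, fun b _ => ?_, fun w hw => ?_⟩
    · refine cov_comm_norm ?_ ?_ (hg.1 a ha) ?_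
      · rintro _ ⟨b, rfl⟩
        exact ⟨R b, ⟨b, rfl⟩, h.SR a b⟩
      · rintro _ ⟨b, rfl⟩
        rw [sadj h]
        exact ⟨R b, ⟨b, rfl⟩, h.SR _ b⟩
      · rw [sadj h]; exact hg.1 _ (U.inv_mem ha)
    · refine cov_comm (fun x hx η => ?_) (fun x hx η => ?_)
      · obtain ⟨b', rfl⟩ := hx
        have : R b (R b' (g η)) = R (b * b') (g η) := by rw [map_mul]; rfl
        rw [this]
        exact mem_covK (X := Set.range fun b => R b) (x := R (b * b')) ⟨b * b', rfl⟩ η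
      · obtain ⟨b', rfl⟩ := hx
        rw [radj h]
        have : R b⁻¹ (R b' (g η)) = R (b⁻¹ * b') (g η) := by rw [map_mul]; rfl
        rw [this]
        exact mem_covK (X := Set.range fun b => R b) (x := R (b⁻¹ * b')) ⟨b⁻¹ * b', rfl⟩ η
    · refine cov_comm_norm ?_ ?_ (hg.2.2 w hw) (hg.2.2 _ (wadj h hw))
      · rintro _ ⟨b, rfl⟩
        exact ⟨R b, ⟨b, rfl⟩, h.WR w hw b⟩
      · rintro _ ⟨b, rfl⟩
        exact ⟨R b, ⟨b, rfl⟩, h.WR _ (wadj h hw) b⟩
  obtain ⟨c, hc⟩ := hE.E1 U hU _ hQ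
  have hne : cov (Set.range fun b => R b) g ≠ 0 := cov_ne_zero hX1 hg0
  have hid : cov (Set.range fun b => R b) g * cov (Set.range fun b => R b) g =
      cov (Set.range fun b => R b) g := cov_prj.idem
  have h3 : cov (Set.range fun b => R b) g * cov (Set.range fun b => R b) g =
      c • cov (Set.range fun b => R b) g := by
    nth_rewrite 1 [hc]
    rw [smul_mul_assoc, one_mul]
  rw [hid] at h3
  have h4 : (c - 1) • cov (Set.range fun b => R b) g = 0 := by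
    rw [sub_smul, one_smul, ← h3, sub_self]
  have h5 : c = 1 := sub_eq_zero.1 ((smul_eq_zero.1 h4).resolve_right hne)
  rw [h5, one_smul] at hc
  have h6 : y * cov (Set.range fun b => R b) g = 0 := by
    refine mul_cov_zero ?_
    rintro _ ⟨b, rfl⟩
    rw [mul_assoc]; exact hy b
  rwa [hc, mul_one] at h6

theorem cen_cjR (h : Sys S R W) (hB : GIn cB) {K : Subgroup A} {e : H →L[ℂ] H}
    (he : Cen S R W cA cB K e) (b : B) : Cen S R W cA cB K (cj R b e) := by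
  obtain ⟨V, hV, hm⟩ := he.mem
  refine ⟨he.K_mem, cj_prj (sys_swap h) b he.prj, fun h0 => he.ne (cj_eq_zero.1 h0),
    ⟨_, map_conj_mem hB hV b, cjR_mem h hm b⟩,
    comm_cj (fun x hx => qq_cjR h hB hx _) he.comm, fun a ha => ?_⟩
  rw [cjSR h, ← cj_mul, he.sep a ha, cj_zero]

theorem cen_cjS (h : Sys S R W) (hA : GIn cA) {K : Subgroup A} {e : H →L[ℂ] H}
    (he : Cen S R W cA cB K e) (a : A) :
    Cen S R W cA cB (K.map (MulAut.conj a).toMonoidHom) (cj S a e) := by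
  obtain ⟨V, hV, hm⟩ := he.mem
  refine ⟨map_conj_mem hA he.K_mem a, cj_prj h a he.prj, fun h0 => he.ne (cj_eq_zero.1 h0),
    ⟨V, hV, cjS_mem h hm a⟩, comm_cj (fun x hx => qq_cjS h hA hx _) he.comm, fun s hs => ?_⟩
  have hs' : a⁻¹ * s * a ∉ K := fun hcon => hs (mem_map_conj.2 hcon)
  have h1 := congrArg (cj S a) (he.sep _ hs')
  rw [cj_mul, cj_cj, cj_zero] at h1
  rw [cj_cj]
  have : a * (a⁻¹ * s * a) = s * a := by group
  rwa [this] at h1

theorem cen_mul (h : Sys S R W) (hA : GIn cA) (hB : GIn cB) {K L : Subgroup A}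
    {e g : H →L[ℂ] H} (he : Cen S R W cA cB K e) (hg : Cen S R W cA cB L g) (hne : e * g ≠ 0) :
    Cen S R W cA cB (K ⊓ L) (e * g) := by
  obtain ⟨V, hV, hm⟩ := he.mem
  obtain ⟨V', hV', hm'⟩ := hg.mem
  refine ⟨hA.inf K he.K_mem L hg.K_mem, prj_mul_of_comm he.prj hg.prj (hg.comm e he.qq), hne,
    ⟨V ⊓ V', hB.inf V hV V' hV', Q_mul (Q_mono inf_le_left inf_le_left hm)
      (Q_mono inf_le_right inf_le_right hm')⟩, fun x hx => ?_, fun a ha => ?_⟩
  · rw [← mul_assoc, he.comm x hx, mul_assoc, hg.comm x hx, mul_assoc]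
  · rw [cj_mul]
    have hc : cj S a e * g = g * cj S a e := hg.comm _ (qq_cjS h hA he.qq a)
    by_cases haK : a ∈ K
    · have haL : a ∉ L := fun hL => ha ⟨haK, hL⟩
      calc e * g * (cj S a e * cj S a g) = e * (g * cj S a e) * cj S a g := by
            simp only [mul_assoc]
        _ = e * cj S a e * (g * cj S a g) := by rw [← hc]; simp only [mul_assoc]
        _ = 0 := by rw [hg.sep a haL, mul_zero]
    · calc e * g * (cj S a e * cj S a g) = e * (g * cj S a e) * cj S a g := by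
            simp only [mul_assoc]
        _ = e * cj S a e * (g * cj S a g) := by rw [← hc]; simp only [mul_assoc]
        _ = 0 := by rw [he.sep a haK, zero_mul]

theorem cen_small (h : Sys S R W) (hA : GIn cA) (hB : GIn cB) (hE : Erg S R W cA cB)
    {L : Subgroup A} {ζ : H →L[ℂ] H} (hζ : Cen S R W cA cB L ζ) {U' : Subgroup A}
    (hU' : U' ∈ cA) : ∃ K e, K ≤ U' ∧ Cen S R W cA cB K e := by
  classical
  obtain ⟨s, hs⟩ := hA.g5 L hζ.K_mem U' hU'
  have key : ∀ s : Finset A, ∃ K e, Cen S R W cA cB K e ∧ ∀ x ∈ K, ∀ g ∈ s, g⁻¹ * x * g ∈ L := by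
    intro s
    induction s using Finset.induction_on with
    | empty => exact ⟨L, ζ, hζ, by simp⟩
    | insert a s _ ih =>
      obtain ⟨K, e, he, hK⟩ := ih
      have hga := cen_cjS h hA hζ a
      obtain ⟨V, hV, hgm⟩ := hga.mem
      obtain ⟨b, hb⟩ : ∃ b : B, e * (R b * cj S a ζ) ≠ 0 := by
        by_contra hcon
        push Not at hcon
        exact he.ne (joinR h hA hE hga.K_mem hgm hga.ne hcon)
      have hne : e * cj R b (cj S a ζ) ≠ 0 := by
        intro h0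
        apply hb
        have h1 := congrArg (fun T => T * R b) h0
        simp only [cj, zero_mul] at h1
        rw [← h1]
        simp only [cj, mul_assoc]
        rw [S_inv_mul, mul_one]
      refine ⟨K ⊓ _, e * cj R b (cj S a ζ), cen_mul h hA hB he (cen_cjR h hB hga b) hne, ?_⟩
      intro x hx g hg
      rcases Finset.mem_insert.1 hg with rfl | hg
      · exact mem_map_conj.1 hx.2
      · exact hK x hx.1 g hg
  obtain ⟨K, e, he, hK⟩ := key s
  exact ⟨K, e, fun x hx => hs x (hK x hx), he⟩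

/-- **TA-4**: central atoms at all small levels imply that `𝒬` is commutative -/
theorem comm_of_catom (h : Sys S R W) (hA : GIn cA) (hB : GIn cB) (hE : Erg S R W cA cB)
    {V₀ : Subgroup B} (hV0 : V₀ ∈ cB)
    (hcat : ∀ V ∈ cB, V ≤ V₀ → ∃ U z, CAtom S R W cA V U z) :
    ∀ x ∈ QQ S R W cA cB, ∀ y ∈ QQ S R W cA cB, x * y = y * x := by
  obtain ⟨L, ζ, hζ⟩ := exists_cen h hA hB hE hV0 hcat
  rintro x ⟨U, hU, V, hV, hx⟩ y ⟨U', hU', V', hV', hy⟩
  obtain ⟨K, e, hK, he⟩ := cen_small h hA hB hE hζ (hA.inf U hU U' hU')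
  obtain ⟨Ve, hVe, hem⟩ := he.mem
  rw [← sub_eq_zero]
  refine joinR h hA hE he.K_mem hem he.ne fun b => ?_
  have hg := cen_cjR h hB he b
  obtain ⟨Vg, hVg, hgm⟩ := hg.mem
  have hscal : ∀ w : H →L[ℂ] H, ∀ Vw ∈ cB, w ∈ Q S R W K Vw → ∃ c : ℂ,
      w * cj R b e = c • cj R b e := by
    intro w Vw hVw hw
    obtain ⟨c, hc⟩ := trick h (hE.E2 (Vw ⊓ Vg) (hB.inf _ hVw _ hVg)) (e := cj R b e) (L := K)
      hg.prj (Q_mono le_rfl inf_le_right hgm) hg.sep (y := w)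
      (Q_mono le_rfl inf_le_left hw)
    refine ⟨c, ?_⟩
    rw [← hc, ← hg.comm w ⟨K, he.K_mem, Vw, hVw, hw⟩, mul_assoc, hg.prj.idem]
  obtain ⟨c, hc⟩ := hscal x V hV (Q_mono (hK.trans inf_le_left) le_rfl hx)
  obtain ⟨d, hd⟩ := hscal y V' hV' (Q_mono (hK.trans inf_le_right) le_rfl hy)
  have h1 : (x * y - y * x) * cj R b e = 0 := by
    rw [sub_mul, mul_assoc, hd, mul_smul_comm, hc, mul_assoc, hc, mul_smul_comm, hd, smul_smul,
      smul_smul, mul_comm, sub_self]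
  have h2 := congrArg (fun T => T * R b) h1
  simp only [cj, zero_mul] at h2
  rw [← h2]
  simp only [mul_assoc]
  rw [S_inv_mul, mul_one]

end Vale.Agent.P092.H878
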