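import Vale.Agent.P092.H878.CCf
import Vale.Agent.P092.H378.C2

/-! # The complex points and Lagrangian planes in the ring letters of helper378 -/

set_option linter.unusedSectionVars false
set_option linter.unusedVariables false

namespace Vale.Agent.P092.H878.CC

open scoped ComplexConjugate
open Matrix Vale.Agent.P092.H616.CH
open Vale.Agent.P092.RC (YY)
open Vale.Agent.P092.SP4
open Vale.Agent.P092.H378.C

theorem syC : Sy (J4 ℂ) := ⟨J4_tr, J4_sq⟩

theorem vmv4 (A : Matrix (Fin 4) (Fin 4) ℂ) (a b c d : Fin 4 → ℂ) :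
    vecMulVec a b * A * vecMulVec c d = (b ⬝ᵥ (A *ᵥ c)) • vecMulVec a d := by
  ext i j
  rw [Matrix.mul_assoc, Matrix.mul_vecMulVec, Matrix.mul_apply, Matrix.smul_apply]
  simp only [vecMulVec_apply, smul_eq_mul]
  rw [dotProduct, Finset.sum_mul]
  exact Finset.sum_congr rfl fun k _ => by ring

theorem transpose_vmv (a b : Fin 4 → ℂ) : (vecMulVec a b)ᵀ = vecMulVec b a := by
  ext i j
  simp [vecMulVec_apply, mul_comm]

theorem om_star (u v : Fin 4 → ℂ) : om (star u) (star v) = star (om u v) := by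
  rw [om_eq, om_eq]
  simp only [Pi.star_apply, star_sub, star_add, star_mul']

theorem vC_star_self (x : YY ℂ 3) : star (vC x) ⬝ᵥ (J4 ℂ *ᵥ star (vC x)) = 0 := om_self _

theorem ptC (x : YY ℂ 3) : PtR (J4 ℂ) (XC x) where
  idem := (geoC.pt x).idem
  rk1 := by
    intro i j k l
    rw [XC_eq]
    simp only [vecMulVec_apply]
    ring
  tr := by
    have h := (geoC.pt x).tr
    rw [Matrix.trace]
    simpa using h
  sy := by
    rw [XC_eq, transpose_vmv, vmv4]
    have h : star (vC x) ⬝ᵥ (J4 ℂ *ᵥ star (vC x)) = 0 := om_self _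
    rw [h, zero_smul]
  sy' := by
    rw [XC_eq, transpose_vmv, vmv4]
    have h : vC x ⬝ᵥ (J4 ℂ *ᵥ vC x) = 0 := om_self _
    rw [h, zero_smul]

/-- the four vectors of a Lagrangian frame -/
noncomputable def fr (u v : Fin 4 → ℂ) : Matrix (Fin 4) (Fin 4) ℂ := Matrix.of fun i j =>
  (![u i, v i, (J4 ℂ *ᵥ star u) i, (J4 ℂ *ᵥ star v) i] : Fin 4 → ℂ) j

theorem jstar (u : Fin 4 → ℂ) :
    J4 ℂ *ᵥ star u = ![conj (u 3), conj (u 2), -conj (u 1), -conj (u 0)] := by
  ext i
  fin_cases i <;> simp [J4, Matrix.mulVec, dotProduct, Fin.sum_univ_four]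

theorem fr_uni {u v : Fin 4 → ℂ} (h1 : star u ⬝ᵥ u = 1) (h2 : star v ⬝ᵥ v = 1)
    (h3 : star u ⬝ᵥ v = 0) (h4 : om u v = 0) : (fr u v)ᴴ * fr u v = 1 := by
  have e1 : conj (u 0) * u 0 + conj (u 1) * u 1 + conj (u 2) * u 2 + conj (u 3) * u 3 = 1 := by
    simpa [dotProduct, Fin.sum_univ_four] using h1
  have e2 : conj (v 0) * v 0 + conj (v 1) * v 1 + conj (v 2) * v 2 + conj (v 3) * v 3 = 1 := by
    simpa [dotProduct, Fin.sum_univ_four] using h2
  have e3 : conj (u 0) * v 0 + conj (u 1) * v 1 + conj (u 2) * v 2 + conj (u 3) * v 3 = 0 := by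
    simpa [dotProduct, Fin.sum_univ_four] using h3
  have e3' : u 0 * conj (v 0) + u 1 * conj (v 1) + u 2 * conj (v 2) + u 3 * conj (v 3) = 0 := by
    have := congrArg conj e3
    simpa only [map_add, map_mul, Complex.conj_conj, map_zero] using this
  have e4 : u 0 * v 3 + u 1 * v 2 - u 2 * v 1 - u 3 * v 0 = 0 := by rw [← om_eq]; exact h4
  have e4' : conj (u 0) * conj (v 3) + conj (u 1) * conj (v 2) - conj (u 2) * conj (v 1) -
      conj (u 3) * conj (v 0) = 0 := by
    have := congrArg conj e4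
    simpa only [map_add, map_sub, map_mul, map_zero] using this
  ext i j
  rw [Matrix.mul_apply, Fin.sum_univ_four]
  simp only [fr, jstar, Matrix.conjTranspose_apply, Matrix.of_apply, RCLike.star_def]
  fin_cases i
  · fin_cases j
    · simp; linear_combination e1
    · simp; linear_combination e3
    · simp; ring
    · simp; linear_combination e4'
  · fin_cases j
    · simp; linear_combination e3'
    · simp; linear_combination e2
    · simp; linear_combination -e4'
    · simp; ring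
  · fin_cases j
    · simp; ring
    · simp; linear_combination -e4
    · simp; linear_combination e1
    · simp; linear_combination e3'
  · fin_cases j
    · simp; linear_combination e4
    · simp; ring
    · simp; linear_combination e3
    · simp; linear_combination e2

theorem fr_sum (u v : Fin 4 → ℂ) : fr u v * (fr u v)ᴴ =
    vecMulVec u (star u) + vecMulVec v (star v) +
      vecMulVec (J4 ℂ *ᵥ star u) (star (J4 ℂ *ᵥ star u)) +
      vecMulVec (J4 ℂ *ᵥ star v) (star (J4 ℂ *ᵥ star v)) := by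
  ext i j
  rw [Matrix.mul_apply, Fin.sum_univ_four]
  simp only [fr, Matrix.conjTranspose_apply, Matrix.of_apply, Matrix.add_apply, vecMulVec_apply,
    Pi.star_apply]
  simp

theorem jj (u : Fin 4 → ℂ) : J4 ℂ * vecMulVec (star u) u * (J4 ℂ)ᵀ =
    vecMulVec (J4 ℂ *ᵥ star u) (star (J4 ℂ *ᵥ star u)) := by
  rw [Matrix.mul_vecMulVec, Matrix.vecMulVec_mul]
  congr 1
  rw [Matrix.vecMul_transpose]
  ext i
  fin_cases i <;> simp [J4, Matrix.mulVec, dotProduct, Fin.sum_univ_four]

theorem frame_one {u v : Fin 4 → ℂ} (h1 : star u ⬝ᵥ u = 1) (h2 : star v ⬝ᵥ v = 1)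
    (h3 : star u ⬝ᵥ v = 0) (h4 : om u v = 0) :
    vecMulVec u (star u) + vecMulVec v (star v) + J4 ℂ * (vecMulVec u (star u) +
      vecMulVec v (star v))ᵀ * (J4 ℂ)ᵀ = 1 := by
  have h := mul_eq_one_comm.mp (fr_uni h1 h2 h3 h4)
  rw [fr_sum] at h
  rw [← h, transpose_add, transpose_vmv, transpose_vmv, Matrix.mul_add, Matrix.add_mul, jj, jj]
  abel

theorem PC_lag (z : LL ℂ) : (PC z)ᵀ * J4 ℂ = J4 ℂ * (1 - PC z) := by
  obtain ⟨u, v, h1, h2, h3, h4, h5, h6, h7⟩ := PC_on z
  have h := frame_one h1 h2 h3 h4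
  rw [← h7] at h
  have h' : 1 - PC z = J4 ℂ * (PC z)ᵀ * (J4 ℂ)ᵀ := by rw [← h]; abel
  have hs := J4_sq (k := ℂ)
  rw [h', J4_tr, mul_neg, mul_neg, ← Matrix.mul_assoc, ← Matrix.mul_assoc, hs, neg_mul, neg_mul,
    one_mul, neg_neg]

theorem lgC (z : LL ℂ) : LgR (J4 ℂ) (PC z) where
  idem := (geoC.ln z).idem
  tr := by
    have h := (geoC.ln z).tr
    rw [Matrix.trace]
    simpa using h
  lag := PC_lag z
  minor := by
    intro i c d a b j
    have h := geoC.minor z i c d j a b
    linear_combination h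

end Vale.Agent.P092.H878.CC
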