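import Vale.Agent.P092.H878.CCd
import Vale.Agent.P092.H283.CarD

/-! # Carnot cells, part 5: the statement of the cells in matrix letters -/

set_option linter.unusedSectionVars false
set_option linter.unusedVariables false

namespace Vale.Agent.P092.H878.CC

open scoped InnerProductSpace ComplexConjugate Matrix
open Finset Vale.Agent.P092.H283.Syn Vale.Agent.P092.H283.Car Matrix

variable {n : ℕ}

/-- the vector of a tuple -/
noncomputable def tv (a : Fin n → ℂ) : VV n := WithLp.toLp 2 a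

@[simp] lemma tv_apply (a : Fin n → ℂ) (i : Fin n) : tv a i = a i := rfl

lemma tv_inner (a b : Fin n → ℂ) : ⟪tv a, tv b⟫_ℂ = star a ⬝ᵥ b := by
  rw [PiLp.inner_apply]
  simp only [dotProduct]
  apply Finset.sum_congr rfl
  intro i _
  rw [RCLike.inner_apply, mul_comm]
  rfl

lemma tv_norm {a : Fin n → ℂ} (h : star a ⬝ᵥ a = 1) : ‖tv a‖ = 1 := by
  have h1 : (‖tv a‖ : ℂ) ^ 2 = 1 := by
    rw [← h, ← tv_inner, inner_self_eq_norm_sq_to_K]; rfl
  have h2 : ‖tv a‖ ^ 2 = 1 := by exact_mod_cast h1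
  nlinarith [norm_nonneg (tv a), sq_nonneg (‖tv a‖ - 1)]

lemma norm_sq_eq (a : VV n) : ((‖a‖ ^ 2 : ℝ) : ℂ) = star (WithLp.ofLp a) ⬝ᵥ (WithLp.ofLp a) := by
  have h : ⟪a, a⟫_ℂ = star (WithLp.ofLp a) ⬝ᵥ (WithLp.ofLp a) := tv_inner (WithLp.ofLp a) (WithLp.ofLp a)
  rw [← h, inner_self_eq_norm_sq_to_K]
  push_cast
  rfl

/-- the form of a matrix -/
noncomputable def fo (J : Matrix (Fin n) (Fin n) ℂ) : VV n →ₗ[ℂ] VV n →ₗ[ℂ] ℂ :=
  LinearMap.mk₂ ℂ (fun a b => (WithLp.ofLp a) ⬝ᵥ (J *ᵥ (WithLp.ofLp b)))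
    (by intro a a' b; rw [WithLp.ofLp_add, add_dotProduct])
    (by intro c a b; rw [WithLp.ofLp_smul, smul_dotProduct, smul_eq_mul])
    (by intro a b b'; rw [WithLp.ofLp_add, mulVec_add, dotProduct_add])
    (by intro c a b; rw [WithLp.ofLp_smul, mulVec_smul, dotProduct_smul, smul_eq_mul])

lemma fo_apply (J : Matrix (Fin n) (Fin n) ℂ) (a b : VV n) :
    fo J a b = (WithLp.ofLp a) ⬝ᵥ (J *ᵥ (WithLp.ofLp b)) := rfl

lemma fo_alt {J : Matrix (Fin n) (Fin n) ℂ} (hJ : Jᵀ = -J) (hJ1 : Jᴴ * J = 1) : Alt (fo J) where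
  bd := by
    intro a b
    have h1 : fo J a b = ⟪tv (star (WithLp.ofLp a)), tv (J *ᵥ (WithLp.ofLp b))⟫_ℂ := by
      rw [tv_inner, star_star, fo_apply]
    have h2 : ‖tv (star (WithLp.ofLp a))‖ = ‖a‖ := by
      have e1 := norm_sq_eq (tv (star (WithLp.ofLp a)))
      have e2 := norm_sq_eq a
      have e3 : ((‖tv (star (WithLp.ofLp a))‖ ^ 2 : ℝ) : ℂ) = ((‖a‖ ^ 2 : ℝ) : ℂ) := by
        rw [e1, e2]
        change star (star (WithLp.ofLp a)) ⬝ᵥ star (WithLp.ofLp a) = _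
        rw [star_star, dotProduct_comm]
      have e4 : ‖tv (star (WithLp.ofLp a))‖ ^ 2 = ‖a‖ ^ 2 := by exact_mod_cast e3
      exact (sq_eq_sq₀ (norm_nonneg _) (norm_nonneg _)).mp e4
    have h3 : ‖tv (J *ᵥ (WithLp.ofLp b))‖ = ‖b‖ := by
      have e1 := norm_sq_eq (tv (J *ᵥ (WithLp.ofLp b)))
      have e2 := norm_sq_eq b
      have e3 : ((‖tv (J *ᵥ (WithLp.ofLp b))‖ ^ 2 : ℝ) : ℂ) = ((‖b‖ ^ 2 : ℝ) : ℂ) := by
        rw [e1, e2]
        change star (J *ᵥ (WithLp.ofLp b)) ⬝ᵥ (J *ᵥ (WithLp.ofLp b)) = _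
        rw [star_mulVec, ← dotProduct_mulVec, mulVec_mulVec, hJ1, one_mulVec]
      have e4 : ‖tv (J *ᵥ (WithLp.ofLp b))‖ ^ 2 = ‖b‖ ^ 2 := by exact_mod_cast e3
      exact (sq_eq_sq₀ (norm_nonneg _) (norm_nonneg _)).mp e4
    rw [h1]
    refine (norm_inner_le_norm _ _).trans ?_
    rw [h2, h3]
  alt := by
    intro a
    have h1 : fo J a a = - fo J a a := by
      conv_lhs => rw [fo_apply, dotProduct_mulVec, dotProduct_comm, ← mulVec_transpose, hJ]
      rw [neg_mulVec, dotProduct_neg, fo_apply]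
    have h2 : fo J a a + fo J a a = 0 := by
      nth_rewrite 1 [h1]
      ring
    have h3 : (2 : ℂ) * fo J a a = 0 := by rw [two_mul]; exact h2
    exact (mul_eq_zero.mp h3).resolve_left two_ne_zero

/-- the linear map of a matrix -/
noncomputable def lm (M : Matrix (Fin n) (Fin n) ℂ) : VV n →ₗ[ℂ] VV n where
  toFun y := tv (M *ᵥ (WithLp.ofLp y))
  map_add' y y' := by
    unfold tv
    rw [WithLp.ofLp_add, mulVec_add]; rfl
  map_smul' c y := by
    unfold tv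
    rw [WithLp.ofLp_smul, mulVec_smul]; rfl

lemma lm_apply (M : Matrix (Fin n) (Fin n) ℂ) (y : VV n) : lm M y = tv (M *ᵥ (WithLp.ofLp y)) := rfl

lemma vmv_mulVec (a y : Fin n → ℂ) : vecMulVec a (star a) *ᵥ y = (star a ⬝ᵥ y) • a := by
  ext i
  simp only [mulVec, dotProduct, vecMulVec_apply, Pi.smul_apply, smul_eq_mul, Finset.sum_mul]
  exact Finset.sum_congr rfl fun j _ => by ring

lemma pl_of {J M : Matrix (Fin n) (Fin n) ℂ} (hω : Alt (fo J)) {a b : Fin n → ℂ}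
    (ha : star a ⬝ᵥ a = 1) (hb : star b ⬝ᵥ b = 1) (hab : star a ⬝ᵥ b = 0)
    (hJ : a ⬝ᵥ (J *ᵥ b) = 0) (hM : M = vecMulVec a (star a) + vecMulVec b (star b)) :
    Pl (fo J) (lm M) := by
  have fm : ∀ y : VV n, lm M y = ⟪tv a, y⟫_ℂ • tv a + ⟪tv b, y⟫_ℂ • tv b := by
    intro y
    have h1 : ⟪tv a, y⟫_ℂ = star a ⬝ᵥ (WithLp.ofLp y) := tv_inner a (WithLp.ofLp y)
    have h2 : ⟪tv b, y⟫_ℂ = star b ⬝ᵥ (WithLp.ofLp y) := tv_inner b (WithLp.ofLp y)
    rw [lm_apply, hM, add_mulVec, vmv_mulVec, vmv_mulVec, h1, h2]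
    rfl
  refine ⟨⟨tv a, tv b, tv_norm ha, tv_norm hb, by rw [tv_inner, hab], fm⟩, ?_⟩
  intro y y'
  have h0 : fo J (tv a) (tv b) = 0 := hJ
  have h0' : fo J (tv b) (tv a) = 0 := by rw [hω.skew, h0, neg_zero]
  rw [fm y, fm y']
  simp only [map_add, map_smul, LinearMap.add_apply, LinearMap.smul_apply, smul_eq_mul, hω.alt, h0,
    h0', mul_zero, add_zero]

variable {X Z : Type*} [TopologicalSpace X] [TopologicalSpace Z]

/-- **The cells**: the statement `CellsStmt` for unit vectors and totally isotropic planes. -/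
theorem cellsStmt {v : X → Fin n → ℂ} {Q : C(X, Matrix (Fin n) (Fin n) ℂ)}
    {P : C(Z, Matrix (Fin n) (Fin n) ℂ)} {J : Matrix (Fin n) (Fin n) ℂ} (hJ : Jᵀ = -J)
    (hJ1 : Jᴴ * J = 1) (hv : ∀ x, star (v x) ⬝ᵥ v x = 1)
    (hQ : ∀ x, Q x = vecMulVec (v x) (star (v x)))
    (hP : ∀ z, ∃ a b : Fin n → ℂ, star a ⬝ᵥ a = 1 ∧ star b ⬝ᵥ b = 1 ∧ star a ⬝ᵥ b = 0 ∧
      a ⬝ᵥ (J *ᵥ b) = 0 ∧ P z = vecMulVec a (star a) + vecMulVec b (star b)) :
    CellsStmt v Q P J := by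
  classical
  rcases isEmpty_or_nonempty X with hX | hX
  · refine ⟨1, one_pos, 0, fun N _ => ⟨⟨Empty, ∅, Empty.elim, Empty.elim, Empty.elim, ?_, ?_, ?_, ?_, ?_,
      ?_, ?_, ?_, ?_, ?_, ?_⟩⟩⟩
    · exact fun α => α.elim
    · exact fun x => hX.elim x
    · exact fun α => α.elim
    · exact fun α => α.elim
    · exact fun α => α.elim
    · exact fun α => α.elim
    · exact fun α => α.elim
    · exact fun α => α.elim
    · exact fun α => α.elim
    · intro z t ht _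
      have : t = ∅ := Finset.subset_empty.mp ht
      rw [this]
      simp only [Finset.card_empty, Nat.cast_zero]
      positivity
    · exact fun z α => α.elim
  have hω := fo_alt hJ hJ1
  let G : Dat (fo J) X Z :=
    { v := fun x => tv (v x)
      hv := fun x => tv_norm (hv x)
      hc := by
        intro i j
        have : (fun x => tv (v x) i * conj (tv (v x) j)) = fun x => Q x i j := by
          funext x
          rw [hQ x, vecMulVec_apply]
          rfl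
        rw [this]
        exact Q.continuous.matrix_elem i j
      P := fun z => lm (P z)
      hP := by
        intro z
        obtain ⟨a, b, h1, h2, h3, h4, h5⟩ := hP z
        exact pl_of hω h1 h2 h3 h4 h5
      hPc := by
        intro y
        have h1 : Continuous fun z => P z *ᵥ (WithLp.ofLp y) :=
          P.continuous.matrix_mulVec continuous_const
        exact (PiLp.continuous_toLp 2 _).comp h1 }
  have hD := Dat.DD_pos (n := n)
  have hB := Dat.BB_pos (n := n)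
  have hK := Dat.KK_pos (n := n)
  have hLL : 0 < Dat.LL n := by
    unfold Dat.LL
    have : 0 < (4 * Dat.DD n + 5) ^ 2 + 648 * Dat.DD n ^ 2 := by positivity
    exact mul_pos this hK
  set C : ℝ := 4 * Dat.DD n + 4 * Dat.BB n + 4 + (16 + 12 * Dat.DD n ^ 2) + 162 * Dat.KK n + Dat.LL n with hC
  have hDsq : 0 ≤ 12 * Dat.DD n ^ 2 := by positivity
  refine ⟨C, by positivity, ⌈8 * Dat.DD n⌉₊, fun N hN => ?_⟩
  have hN8 : 8 * Dat.DD n ≤ N := (Nat.le_ceil _).trans (by exact_mod_cast hN)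
  have hN2 : 2 * Dat.DD n ≤ N := by linarith
  have hN' : (0 : ℝ) < N := by linarith
  have hN0 : 0 < N := by exact_mod_cast hN'
  have hdiff : ∀ x y : X, ∀ i j : Fin n, ∀ l : Fin 2,
      pc (G.v x) (i, j, l) - pc (G.v y) (i, j, l) = cp (Q x i j - Q y i j) l := by
    intro x y i j l
    rw [← cp_sub, hQ x, hQ y, vecMulVec_apply, vecMulVec_apply]
    rfl
  refine ⟨⟨Dat.Ix n, G.s N, G.φ N, G.xa N, G.ψ hω N, G.φ_nonneg N, G.sum_φ hω N, G.ψ_nonneg hω N,
    G.ψ_le hω N, ?_, ?_, ?_, ?_, ?_, ?_, ?_⟩⟩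
  · intro t ht x hx z hz hinc
    apply G.kill hω hN2 ht hx (z := z) hz
    change lm (P z) (tv (v x)) = tv (v x)
    rw [lm_apply]
    congr 1
    change P z *ᵥ v x = v x
    have h1 : Q x *ᵥ v x = v x := by rw [hQ, vmv_mulVec, hv, one_smul]
    conv_lhs => rw [← h1]
    rw [mulVec_mulVec, hinc, h1]
  · intro t _ z hz
    have h1 := G.ψ_nn hω hN0 hz
    have h2 : ‖v (G.xa N t) - P z *ᵥ v (G.xa N t)‖ ≤ G.nn (G.xa N t) z := by
      have h3 : (0 : ℝ) ≤ G.nn (G.xa N t) z := norm_nonneg _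
      refine (pi_norm_le_iff_of_nonneg h3).mpr fun i => ?_
      exact coord_le (G.v (G.xa N t) - G.P z (G.v (G.xa N t))) i
    refine (h2.trans h1).trans ?_
    apply div_le_div_of_nonneg_right _ hN'.le
    rw [hC]; linarith
  · intro t _ z hz
    have h1 := G.ψ_bb hω hN0 hz
    refine (show ‖(P z *ᵥ v (G.xa N t)) ⬝ᵥ (J *ᵥ v (G.xa N t))‖ ≤ 4 * Dat.BB n / N ^ 2 from h1).trans ?_
    apply div_le_div_of_nonneg_right _ (by positivity)
    rw [hC]; linarith
  · intro t ht x hx i j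
    have I1 := G.in_of hx
    have I2 := G.xa_in ht
    have h1 : ‖Q x i j - Q (G.xa N t) i j‖ ≤ 2 * (2 / N) := by
      apply norm_le_cp
      intro l
      rw [← hdiff]
      exact G.near_c hN0 I2.c I1.c (i, j, l)
    refine h1.trans ?_
    rw [show 2 * (2 / (N : ℝ)) = 4 / N by ring]
    apply div_le_div_of_nonneg_right _ hN'.le
    rw [hC]; linarith
  · intro t ht x hx
    have h1 := G.om_near hω hN2 ht (G.in_of hx) (G.xa_in ht)
    refine (show ‖v x ⬝ᵥ (J *ᵥ v (G.xa N t))‖ ≤ (16 + 12 * Dat.DD n ^ 2) / N ^ 2 from h1).trans ?_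
    apply div_le_div_of_nonneg_right _ (by positivity)
    rw [hC]; linarith
  · intro z t ht hψ
    have h1 := G.count hω hN8 z t (fun β hβ => ⟨ht hβ, hψ β hβ⟩)
    refine h1.trans ?_
    apply mul_le_mul_of_nonneg_right _ (by positivity)
    rw [hC]; linarith
  · intro z α hα hψ δ hδ _ t ht hcl
    have h1 := G.count_loc hω hN8 z hα hψ hδ t (fun β hβ => ⟨ht hβ, (hcl β hβ).1, fun i => by
      obtain ⟨i, j, l⟩ := i
      rw [hdiff]
      exact (abs_cp_le _ _).trans ((hcl β hβ).2 i j)⟩)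
    refine h1.trans ?_
    apply mul_le_mul_of_nonneg_right _ (sq_nonneg _)
    rw [hC]; linarith

end Vale.Agent.P092.H878.CC
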