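import Mathlib

/-! # Carnot cells, part 1: vector estimates for points and totally isotropic planes -/

set_option linter.unusedSectionVars false
set_option linter.unusedVariables false

namespace Vale.Agent.P092.H878.CC

open scoped InnerProductSpace ComplexConjugate
open Finset

variable {V : Type*} [NormedAddCommGroup V] [InnerProductSpace ℂ V]

/-- the part of `v'` orthogonal to the unit vector `v` -/
noncomputable def rm (v v' : V) : V := v' - ⟪v, v'⟫_ℂ • v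

lemma eq_rm (v v' : V) : v' = ⟪v, v'⟫_ℂ • v + rm v v' := by
  unfold rm; abel

lemma rm_perp {v : V} (hv : ‖v‖ = 1) (v' : V) : ⟪v, rm v v'⟫_ℂ = 0 := by
  unfold rm
  rw [inner_sub_right, inner_smul_right, inner_self_eq_norm_sq_to_K, hv]
  simp

lemma rm_sq {v v' : V} (hv : ‖v‖ = 1) (hv' : ‖v'‖ = 1) :
    ‖⟪v, v'⟫_ℂ‖ ^ 2 + ‖rm v v'‖ ^ 2 = 1 := by
  have h := @norm_add_sq_eq_norm_sq_add_norm_sq_of_inner_eq_zero ℂ V _ _ _
    (⟪v, v'⟫_ℂ • v) (rm v v') (by rw [inner_smul_left, rm_perp hv, mul_zero])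
  rw [← eq_rm, hv', norm_smul, hv] at h
  nlinarith [h]

lemma rm_symm {v v' : V} (hv : ‖v‖ = 1) (hv' : ‖v'‖ = 1) : ‖rm v v'‖ = ‖rm v' v‖ := by
  have h1 := rm_sq hv hv'
  have h2 := rm_sq hv' hv
  have h3 : ‖⟪v, v'⟫_ℂ‖ = ‖⟪v', v⟫_ℂ‖ := norm_inner_symm v v'
  rw [h3] at h1
  have h4 : ‖rm v v'‖ ^ 2 = ‖rm v' v‖ ^ 2 := by linarith
  exact (sq_eq_sq₀ (norm_nonneg _) (norm_nonneg _)).mp h4

lemma inner_le_one {v v' : V} (hv : ‖v‖ = 1) (hv' : ‖v'‖ = 1) : ‖⟪v, v'⟫_ℂ‖ ≤ 1 := by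
  have := norm_inner_le_norm (𝕜 := ℂ) v v'
  rwa [hv, hv', one_mul] at this

/-- an alternating form of norm at most one -/
structure Alt (ω : V →ₗ[ℂ] V →ₗ[ℂ] ℂ) : Prop where
  bd : ∀ a b, ‖ω a b‖ ≤ ‖a‖ * ‖b‖
  alt : ∀ a, ω a a = 0

variable {ω : V →ₗ[ℂ] V →ₗ[ℂ] ℂ}

lemma Alt.skew (hω : Alt ω) (a b : V) : ω a b = - ω b a := by
  have h := hω.alt (a + b)
  simp only [map_add, LinearMap.add_apply, hω.alt, zero_add, add_zero] at h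
  first
    | exact eq_neg_of_add_eq_zero_left h
    | exact eq_neg_of_add_eq_zero_right h

/-- the orthogonal projection on a totally isotropic plane -/
structure Pl (ω : V →ₗ[ℂ] V →ₗ[ℂ] ℂ) (P : V →ₗ[ℂ] V) : Prop where
  bas : ∃ a b : V, ‖a‖ = 1 ∧ ‖b‖ = 1 ∧ ⟪a, b⟫_ℂ = 0 ∧ ∀ y, P y = ⟪a, y⟫_ℂ • a + ⟪b, y⟫_ℂ • b
  iso : ∀ y y', ω (P y) (P y') = 0

variable {P : V →ₗ[ℂ] V}

/-- formula for an orthonormal pair -/
structure Bs (P : V →ₗ[ℂ] V) (a b : V) : Prop where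
  na : ‖a‖ = 1
  nb : ‖b‖ = 1
  ab : ⟪a, b⟫_ℂ = 0
  fm : ∀ y, P y = ⟪a, y⟫_ℂ • a + ⟪b, y⟫_ℂ • b

lemma Bs.ba {a b : V} (h : Bs P a b) : ⟪b, a⟫_ℂ = 0 := by
  rw [← inner_conj_symm, h.ab, map_zero]

lemma Bs.aa {a b : V} (h : Bs P a b) : ⟪a, a⟫_ℂ = 1 := by
  rw [inner_self_eq_norm_sq_to_K, h.na]; simp

lemma Bs.bb {a b : V} (h : Bs P a b) : ⟪b, b⟫_ℂ = 1 := by
  rw [inner_self_eq_norm_sq_to_K, h.nb]; simp

lemma Bs.ia {a b : V} (h : Bs P a b) (y : V) : ⟪a, P y⟫_ℂ = ⟪a, y⟫_ℂ := by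
  rw [h.fm, inner_add_right, inner_smul_right, inner_smul_right, h.aa, h.ab]; ring

lemma Bs.ib {a b : V} (h : Bs P a b) (y : V) : ⟪b, P y⟫_ℂ = ⟪b, y⟫_ℂ := by
  rw [h.fm, inner_add_right, inner_smul_right, inner_smul_right, h.ba, h.bb]; ring

lemma Bs.idem {a b : V} (h : Bs P a b) (y : V) : P (P y) = P y := by
  rw [h.fm (P y), h.ia, h.ib, ← h.fm]

lemma Bs.perp {a b : V} (h : Bs P a b) (y : V) : ⟪P y, y - P y⟫_ℂ = 0 := by
  have h1 : ⟪a, y - P y⟫_ℂ = 0 := by rw [inner_sub_right, h.ia, sub_self]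
  have h2 : ⟪b, y - P y⟫_ℂ = 0 := by rw [inner_sub_right, h.ib, sub_self]
  rw [h.fm y, inner_add_left, inner_smul_left, inner_smul_left, ← h.fm y, h1, h2]
  simp

lemma Bs.pyth {a b : V} (h : Bs P a b) (y : V) : ‖P y‖ ^ 2 + ‖y - P y‖ ^ 2 = ‖y‖ ^ 2 := by
  have h1 := @norm_add_sq_eq_norm_sq_add_norm_sq_of_inner_eq_zero ℂ V _ _ _
    (P y) (y - P y) (h.perp y)
  rw [add_sub_cancel] at h1
  nlinarith [h1]

lemma Bs.norm_sq {a b : V} (h : Bs P a b) (y : V) :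
    ‖P y‖ ^ 2 = ‖⟪a, y⟫_ℂ‖ ^ 2 + ‖⟪b, y⟫_ℂ‖ ^ 2 := by
  have h1 := @norm_add_sq_eq_norm_sq_add_norm_sq_of_inner_eq_zero ℂ V _ _ _
    (⟪a, y⟫_ℂ • a) (⟪b, y⟫_ℂ • b)
    (by rw [inner_smul_left, inner_smul_right, h.ab, mul_zero, mul_zero])
  rw [← h.fm, norm_smul, norm_smul, h.na, h.nb] at h1
  nlinarith [h1]

lemma Pl.bs (h : Pl ω P) : ∃ a b : V, Bs P a b := by
  obtain ⟨a, b, h1, h2, h3, h4⟩ := h.bas
  exact ⟨a, b, h1, h2, h3, h4⟩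

lemma Pl.le (h : Pl ω P) (y : V) : ‖P y‖ ≤ ‖y‖ := by
  obtain ⟨a, b, hb⟩ := h.bs
  have := hb.pyth y
  nlinarith [norm_nonneg (P y), norm_nonneg y, sq_nonneg ‖y - P y‖,
    abs_le_of_sq_le_sq (a := ‖P y‖) (b := ‖y‖) (by nlinarith [sq_nonneg ‖y - P y‖]) (norm_nonneg y)]

lemma Pl.sub_le (h : Pl ω P) (y : V) : ‖y - P y‖ ≤ ‖y‖ := by
  obtain ⟨a, b, hb⟩ := h.bs
  have := hb.pyth y
  exact (abs_le_of_sq_le_sq' (by nlinarith [sq_nonneg ‖P y‖]) (norm_nonneg y)).2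

/-- change of basis: the second vector can be taken orthogonal to a given vector -/
lemma Bs.change {a b : V} (h : Bs P a b) {y : V} (hy : P y ≠ 0) :
    ∃ a' b' : V, Bs P a' b' ∧ ⟪b', y⟫_ℂ = 0 := by
  set α := ⟪a, y⟫_ℂ with hα
  set β := ⟪b, y⟫_ℂ with hβ
  set r : ℝ := ‖P y‖ with hr
  have hr0 : 0 < r := norm_pos_iff.mpr hy
  have hrc : (r : ℂ) ≠ 0 := by exact_mod_cast hr0.ne'
  have hsq : α * conj α + β * conj β = (r : ℂ) ^ 2 := by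
    have h1 := h.norm_sq y
    rw [← hr, ← hα, ← hβ] at h1
    rw [Complex.mul_conj, Complex.mul_conj, Complex.normSq_eq_norm_sq, Complex.normSq_eq_norm_sq,
      ← Complex.ofReal_add, ← h1]
    push_cast
    ring
  have hsq' : (r : ℂ)⁻¹ * α * ((r : ℂ)⁻¹ * conj α) + (r : ℂ)⁻¹ * β * ((r : ℂ)⁻¹ * conj β) = 1 := by
    field_simp
    rw [← hsq]
  set a' : V := ((r : ℂ)⁻¹ * α) • a + ((r : ℂ)⁻¹ * β) • b with ha'
  set b' : V := (-((r : ℂ)⁻¹ * conj β)) • a + ((r : ℂ)⁻¹ * conj α) • b with hb'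
  have hcr : conj ((r : ℂ)⁻¹) = (r : ℂ)⁻¹ := by
    rw [map_inv₀, Complex.conj_ofReal]
  have inn : ∀ p q p' q' : ℂ, ⟪p • a + q • b, p' • a + q' • b⟫_ℂ = conj p * p' + conj q * q' := by
    intro p q p' q'
    rw [inner_add_left, inner_add_right, inner_add_right, inner_smul_left, inner_smul_left,
      inner_smul_left, inner_smul_left, inner_smul_right, inner_smul_right, inner_smul_right,
      inner_smul_right, h.aa, h.bb, h.ab, h.ba]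
    ring
  have iny : ∀ p q : ℂ, ∀ y' : V, ⟪p • a + q • b, y'⟫_ℂ = conj p * ⟪a, y'⟫_ℂ + conj q * ⟪b, y'⟫_ℂ := by
    intro p q y'
    rw [inner_add_left, inner_smul_left, inner_smul_left]
  have naa : ⟪a', a'⟫_ℂ = 1 := by
    rw [ha', inn, map_mul, map_mul, hcr, ← hsq']
    ring
  have nbb : ⟪b', b'⟫_ℂ = 1 := by
    rw [hb', inn, map_neg, map_mul, map_mul, hcr, Complex.conj_conj, Complex.conj_conj, ← hsq']
    ring
  have nab : ⟪a', b'⟫_ℂ = 0 := by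
    rw [ha', hb', inn, map_mul, map_mul, hcr]
    ring
  have nrm1 : ∀ w : V, ⟪w, w⟫_ℂ = 1 → ‖w‖ = 1 := by
    intro w hw
    have h1 : (‖w‖ : ℂ) ^ 2 = 1 := by rw [← hw, inner_self_eq_norm_sq_to_K]; rfl
    have h2 : ‖w‖ ^ 2 = 1 := by exact_mod_cast h1
    nlinarith [norm_nonneg w, h2, sq_nonneg (‖w‖ - 1)]
  refine ⟨a', b', ⟨nrm1 _ naa, nrm1 _ nbb, nab, ?_⟩, ?_⟩
  · intro y'
    rw [h.fm y', ha', hb', iny, iny, map_neg, map_mul, map_mul, map_mul, map_mul, hcr,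
      Complex.conj_conj, Complex.conj_conj]
    simp only [smul_add, smul_smul]
    set A := ⟪a, y'⟫_ℂ
    set B := ⟪b, y'⟫_ℂ
    have e1 : A • a + B • b = (((r : ℂ)⁻¹ * α * ((r : ℂ)⁻¹ * conj α) + (r : ℂ)⁻¹ * β * ((r : ℂ)⁻¹ * conj β)) * A) • a +
        (((r : ℂ)⁻¹ * α * ((r : ℂ)⁻¹ * conj α) + (r : ℂ)⁻¹ * β * ((r : ℂ)⁻¹ * conj β)) * B) • b := by
      rw [hsq', one_mul, one_mul]
    rw [e1]
    module
  · rw [hb', iny, map_neg, map_mul, map_mul, hcr, Complex.conj_conj, Complex.conj_conj, ← hα, ← hβ]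
    ring

/-! ### The estimates -/

lemma nn_le (hP : Pl ω P) {v v' : V} (hv : ‖v‖ = 1) (hv' : ‖v'‖ = 1) :
    ‖v' - P v'‖ ≤ ‖v - P v‖ + ‖rm v v'‖ := by
  have h1 : v' - P v' = ⟪v, v'⟫_ℂ • (v - P v) + (rm v v' - P (rm v v')) := by
    conv_lhs => rw [eq_rm v v']
    rw [map_add, map_smul]
    module
  rw [h1]
  refine (norm_add_le _ _).trans (add_le_add ?_ (hP.sub_le _))
  rw [norm_smul]
  exact mul_le_of_le_one_left (norm_nonneg _) (inner_le_one hv hv')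

/-- contact coordinate at a near point -/
lemma bb_le (hω : Alt ω) (hP : Pl ω P) {v v' : V} (hv : ‖v‖ = 1) (hv' : ‖v'‖ = 1) (hPv : P v = v) :
    ‖ω (P v') v'‖ ≤ ‖ω v v'‖ + ‖rm v v'‖ ^ 2 := by
  set e := rm v v' with he
  set c := ⟪v, v'⟫_ℂ with hc
  have h0 : v' = c • v + e := eq_rm v v'
  have h1 : P v' = c • v + P e := by rw [h0, map_add, map_smul, hPv]
  have h2 : ω v v' = ω v e := by
    rw [h0, map_add, map_smul, hω.alt, smul_zero, zero_add]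
  have h3 : ω (P e) v = 0 := by rw [← hPv]; exact hP.iso e v
  have h4 : ω (P v') v' = c * ω v v' + ω (P e) e := by
    rw [h2, h1]
    conv_lhs => rw [h0]
    simp only [map_add, map_smul, LinearMap.add_apply, LinearMap.smul_apply, smul_eq_mul, hω.alt, h3]
    ring
  rw [h4]
  refine (norm_add_le _ _).trans (add_le_add ?_ ?_)
  · rw [norm_mul]
    exact mul_le_of_le_one_left (norm_nonneg _) (inner_le_one hv hv')
  · calc ‖ω (P e) e‖ ≤ ‖P e‖ * ‖e‖ := hω.bd _ _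
      _ ≤ ‖e‖ * ‖e‖ := mul_le_mul_of_nonneg_right (hP.le e) (norm_nonneg _)
      _ = ‖e‖ ^ 2 := (sq _).symm

/-- the contact coordinate of the cell with centre `w` -/
noncomputable def gg (ω : V →ₗ[ℂ] V →ₗ[ℂ] ℂ) (w v : V) : ℂ := ω w v * ⟪v, w⟫_ℂ

lemma gg_id (hω : Alt ω) {w v v' : V} (hw : ‖w‖ = 1) (hv : ‖v‖ = 1) (hv' : ‖v'‖ = 1) :
    ⟪v, w⟫_ℂ * ⟪v', w⟫_ℂ * ω v v' = (gg ω w v' - gg ω w v) - (‖rm w v‖ ^ 2 : ℝ) * gg ω w v' +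
      (‖rm w v'‖ ^ 2 : ℝ) * gg ω w v + ⟪v, w⟫_ℂ * ⟪v', w⟫_ℂ * ω (rm w v) (rm w v') := by
  set e := rm w v with he
  set e' := rm w v' with he'
  set c := ⟪w, v⟫_ℂ with hc
  set c' := ⟪w, v'⟫_ℂ with hc'
  have h0 : v = c • w + e := eq_rm w v
  have h0' : v' = c' • w + e' := eq_rm w v'
  have hcc : ⟪v, w⟫_ℂ = conj c := (inner_conj_symm v w).symm
  have hcc' : ⟪v', w⟫_ℂ = conj c' := (inner_conj_symm v' w).symm
  have h1 : ω w v = ω w e := by rw [h0, map_add, map_smul, hω.alt, smul_zero, zero_add]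
  have h1' : ω w v' = ω w e' := by rw [h0', map_add, map_smul, hω.alt, smul_zero, zero_add]
  have h2 : ω v v' = c * ω w e' - c' * ω w e + ω e e' := by
    conv_lhs => rw [h0, h0']
    simp only [map_add, map_smul, LinearMap.add_apply, LinearMap.smul_apply, smul_eq_mul, hω.alt,
      hω.skew e w]
    ring
  have h3 : conj c * c = ((1 - ‖e‖ ^ 2 : ℝ) : ℂ) := by
    rw [mul_comm, Complex.mul_conj, Complex.normSq_eq_norm_sq]
    have := rm_sq hw hv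
    rw [← hc, ← he] at this
    congr 1
    linarith
  have h3' : conj c' * c' = ((1 - ‖e'‖ ^ 2 : ℝ) : ℂ) := by
    rw [mul_comm, Complex.mul_conj, Complex.normSq_eq_norm_sq]
    have := rm_sq hw hv'
    rw [← hc', ← he'] at this
    congr 1
    linarith
  unfold gg
  rw [h2, hcc, hcc', h1, h1']
  have e1 : conj c * conj c' * (c * ω w e' - c' * ω w e + ω e e') =
      (conj c * c) * (ω w e' * conj c') - (conj c' * c') * (ω w e * conj c) +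
      conj c * conj c' * ω e e' := by ring
  rw [e1, h3, h3']
  push_cast
  ring

lemma gg_le (hω : Alt ω) {w v : V} (hw : ‖w‖ = 1) (hv : ‖v‖ = 1) : ‖gg ω w v‖ ≤ 1 := by
  unfold gg
  rw [norm_mul]
  have h1 := hω.bd w v
  rw [hw, hv, one_mul] at h1
  exact mul_le_one₀ h1 (norm_nonneg _) (inner_le_one hv hw)

/-- in one cell: the value of the form is controlled by the contact coordinate -/
lemma om_le (hω : Alt ω) {w v v' : V} (hw : ‖w‖ = 1) (hv : ‖v‖ = 1) (hv' : ‖v'‖ = 1) {d : ℝ}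
    (hd : d ≤ 1 / 2) (h : ‖rm w v‖ ≤ d) (h' : ‖rm w v'‖ ≤ d) :
    ‖ω v v'‖ ≤ 4 * (‖gg ω w v - gg ω w v'‖ + 3 * d ^ 2) := by
  have hd0 : 0 ≤ d := (norm_nonneg _).trans h
  have hid := gg_id hω hw hv hv'
  have c1 : 1 / 2 ≤ ‖⟪v, w⟫_ℂ‖ := by
    have h1 := rm_sq hw hv
    rw [norm_inner_symm] at h1
    have h2 : ‖rm w v‖ ^ 2 ≤ 1 / 4 := by nlinarith [norm_nonneg (rm w v)]
    nlinarith [norm_nonneg (⟪v, w⟫_ℂ), sq_nonneg (‖⟪v, w⟫_ℂ‖ - 1 / 2)]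
  have c2 : 1 / 2 ≤ ‖⟪v', w⟫_ℂ‖ := by
    have h1 := rm_sq hw hv'
    rw [norm_inner_symm] at h1
    have h2 : ‖rm w v'‖ ^ 2 ≤ 1 / 4 := by nlinarith [norm_nonneg (rm w v')]
    nlinarith [norm_nonneg (⟪v', w⟫_ℂ), sq_nonneg (‖⟪v', w⟫_ℂ‖ - 1 / 2)]
  have g1 := gg_le hω hw hv
  have g2 := gg_le hω hw hv'
  have s1 : ‖rm w v‖ ^ 2 ≤ d ^ 2 := pow_le_pow_left₀ (norm_nonneg _) h 2
  have s2 : ‖rm w v'‖ ^ 2 ≤ d ^ 2 := pow_le_pow_left₀ (norm_nonneg _) h' 2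
  have n1 : ‖⟪v, w⟫_ℂ * ⟪v', w⟫_ℂ * ω v v'‖ ≤ ‖gg ω w v - gg ω w v'‖ + 3 * d ^ 2 := by
    rw [hid]
    have t1 : ‖((‖rm w v‖ ^ 2 : ℝ) : ℂ) * gg ω w v'‖ ≤ d ^ 2 := by
      rw [norm_mul, Complex.norm_real, Real.norm_eq_abs, abs_of_nonneg (sq_nonneg _)]
      calc ‖rm w v‖ ^ 2 * ‖gg ω w v'‖ ≤ d ^ 2 * 1 := mul_le_mul s1 g2 (norm_nonneg _) (sq_nonneg _)
        _ = d ^ 2 := mul_one _
    have t2 : ‖((‖rm w v'‖ ^ 2 : ℝ) : ℂ) * gg ω w v‖ ≤ d ^ 2 := by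
      rw [norm_mul, Complex.norm_real, Real.norm_eq_abs, abs_of_nonneg (sq_nonneg _)]
      calc ‖rm w v'‖ ^ 2 * ‖gg ω w v‖ ≤ d ^ 2 * 1 := mul_le_mul s2 g1 (norm_nonneg _) (sq_nonneg _)
        _ = d ^ 2 := mul_one _
    have t3 : ‖⟪v, w⟫_ℂ * ⟪v', w⟫_ℂ * ω (rm w v) (rm w v')‖ ≤ d ^ 2 := by
      rw [norm_mul, norm_mul]
      have a1 := inner_le_one hv hw
      have a2 := inner_le_one hv' hw
      have a3 : ‖ω (rm w v) (rm w v')‖ ≤ d * d :=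
        (hω.bd _ _).trans (mul_le_mul h h' (norm_nonneg _) hd0)
      calc ‖⟪v, w⟫_ℂ‖ * ‖⟪v', w⟫_ℂ‖ * ‖ω (rm w v) (rm w v')‖ ≤ 1 * (d * d) :=
            mul_le_mul (mul_le_one₀ a1 (norm_nonneg _) a2) a3 (norm_nonneg _) zero_le_one
        _ = d ^ 2 := by ring
    calc ‖(gg ω w v' - gg ω w v) - ((‖rm w v‖ ^ 2 : ℝ) : ℂ) * gg ω w v' +
      ((‖rm w v'‖ ^ 2 : ℝ) : ℂ) * gg ω w v + ⟪v, w⟫_ℂ * ⟪v', w⟫_ℂ * ω (rm w v) (rm w v')‖
        ≤ ‖gg ω w v' - gg ω w v‖ + d ^ 2 + d ^ 2 + d ^ 2 := by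
          refine (norm_add_le _ _).trans (add_le_add ((norm_add_le _ _).trans
            (add_le_add ((norm_sub_le _ _).trans (add_le_add le_rfl t1)) t2)) t3)
      _ = ‖gg ω w v - gg ω w v'‖ + 3 * d ^ 2 := by rw [norm_sub_rev]; ring
  rw [norm_mul, norm_mul] at n1
  have : 1 / 4 * ‖ω v v'‖ ≤ ‖⟪v, w⟫_ℂ‖ * ‖⟪v', w⟫_ℂ‖ * ‖ω v v'‖ := by
    apply mul_le_mul_of_nonneg_right _ (norm_nonneg _)
    nlinarith
  linarith

/-- converse: the contact coordinate is controlled by the form -/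
lemma gg_sub_le (hω : Alt ω) {w v v' : V} (hw : ‖w‖ = 1) (hv : ‖v‖ = 1) (hv' : ‖v'‖ = 1) {d : ℝ}
    (h : ‖rm w v‖ ≤ d) (h' : ‖rm w v'‖ ≤ d) :
    ‖gg ω w v - gg ω w v'‖ ≤ ‖ω v v'‖ + 3 * d ^ 2 := by
  have hd0 : 0 ≤ d := (norm_nonneg _).trans h
  have hid := gg_id hω hw hv hv'
  have g1 := gg_le hω hw hv
  have g2 := gg_le hω hw hv'
  have s1 : ‖rm w v‖ ^ 2 ≤ d ^ 2 := pow_le_pow_left₀ (norm_nonneg _) h 2
  have s2 : ‖rm w v'‖ ^ 2 ≤ d ^ 2 := pow_le_pow_left₀ (norm_nonneg _) h' 2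
  have a1 := inner_le_one hv hw
  have a2 := inner_le_one hv' hw
  have t1 : ‖((‖rm w v‖ ^ 2 : ℝ) : ℂ) * gg ω w v'‖ ≤ d ^ 2 := by
    rw [norm_mul, Complex.norm_real, Real.norm_eq_abs, abs_of_nonneg (sq_nonneg _)]
    calc ‖rm w v‖ ^ 2 * ‖gg ω w v'‖ ≤ d ^ 2 * 1 := mul_le_mul s1 g2 (norm_nonneg _) (sq_nonneg _)
      _ = d ^ 2 := mul_one _
  have t2 : ‖((‖rm w v'‖ ^ 2 : ℝ) : ℂ) * gg ω w v‖ ≤ d ^ 2 := by
    rw [norm_mul, Complex.norm_real, Real.norm_eq_abs, abs_of_nonneg (sq_nonneg _)]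
    calc ‖rm w v'‖ ^ 2 * ‖gg ω w v‖ ≤ d ^ 2 * 1 := mul_le_mul s2 g1 (norm_nonneg _) (sq_nonneg _)
      _ = d ^ 2 := mul_one _
  have t3 : ‖⟪v, w⟫_ℂ * ⟪v', w⟫_ℂ * ω (rm w v) (rm w v')‖ ≤ d ^ 2 := by
    rw [norm_mul, norm_mul]
    have a3 : ‖ω (rm w v) (rm w v')‖ ≤ d * d :=
      (hω.bd _ _).trans (mul_le_mul h h' (norm_nonneg _) hd0)
    calc ‖⟪v, w⟫_ℂ‖ * ‖⟪v', w⟫_ℂ‖ * ‖ω (rm w v) (rm w v')‖ ≤ 1 * (d * d) :=
          mul_le_mul (mul_le_one₀ a1 (norm_nonneg _) a2) a3 (norm_nonneg _) zero_le_one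
      _ = d ^ 2 := by ring
  have t4 : ‖⟪v, w⟫_ℂ * ⟪v', w⟫_ℂ * ω v v'‖ ≤ ‖ω v v'‖ := by
    rw [norm_mul, norm_mul]
    exact mul_le_of_le_one_left (norm_nonneg _) (mul_le_one₀ a1 (norm_nonneg _) a2)
  have e1 : gg ω w v' - gg ω w v = ⟪v, w⟫_ℂ * ⟪v', w⟫_ℂ * ω v v' +
      ((‖rm w v‖ ^ 2 : ℝ) : ℂ) * gg ω w v' - ((‖rm w v'‖ ^ 2 : ℝ) : ℂ) * gg ω w v -
      ⟪v, w⟫_ℂ * ⟪v', w⟫_ℂ * ω (rm w v) (rm w v') := by
    rw [hid]; ring
  rw [norm_sub_rev, e1]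
  calc _ ≤ ‖ω v v'‖ + d ^ 2 + d ^ 2 + d ^ 2 := by
        refine (norm_sub_le _ _).trans (add_le_add ((norm_sub_le _ _).trans
          (add_le_add ((norm_add_le _ _).trans (add_le_add t4 t1)) t2)) t3)
    _ = _ := by ring

/-- two points of one cell near one plane -/
lemma om_le_pl (hω : Alt ω) (hP : Pl ω P) {v v' : V} (hv : ‖v‖ = 1) (hv' : ‖v'‖ = 1) {a b d : ℝ}
    (h1 : ‖v - P v‖ ≤ a) (h1' : ‖v' - P v'‖ ≤ a) (h2 : ‖ω (P v) v‖ ≤ b) (h2' : ‖ω (P v') v'‖ ≤ b)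
    (h3 : ‖rm v v'‖ ≤ d) : ‖ω v v'‖ ≤ 2 * b + 2 * a * d + a ^ 2 := by
  have ha0 : 0 ≤ a := (norm_nonneg _).trans h1
  have hd0 : 0 ≤ d := (norm_nonneg _).trans h3
  set c := ⟪v, v'⟫_ℂ with hc
  set e := rm v v' with he
  set c' := ⟪v', v⟫_ℂ with hc'
  set e' := rm v' v with he'
  have h0 : v' = c • v + e := eq_rm v v'
  have h0' : v = c' • v' + e' := eq_rm v' v
  have hc1 : ‖c‖ ≤ 1 := inner_le_one hv hv'
  have hc1' : ‖c'‖ ≤ 1 := inner_le_one hv' hv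
  have he1 : ‖e'‖ ≤ d := by rw [he', ← rm_symm hv hv']; exact h3
  have dec : ω v v' = ω (v - P v) (P v') + ω (P v) (v' - P v') + ω (v - P v) (v' - P v') := by
    have hi := hP.iso v v'
    simp only [map_sub, LinearMap.sub_apply, hi]
    ring
  have t1 : ‖ω (v - P v) (P v')‖ ≤ b + a * d := by
    have e1 : ω (v - P v) (P v') = c * ω (v - P v) (P v) + ω (v - P v) (P e) := by
      conv_lhs => rw [h0]
      simp only [map_add, map_smul, smul_eq_mul]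
    have e2 : ω (v - P v) (P v) = - ω (P v) v := by
      rw [map_sub, LinearMap.sub_apply, hP.iso, sub_zero, hω.skew]
    rw [e1, e2]
    refine (norm_add_le _ _).trans (add_le_add ?_ ?_)
    · rw [norm_mul, norm_neg]
      exact (mul_le_of_le_one_left (norm_nonneg _) hc1).trans h2
    · exact (hω.bd _ _).trans (mul_le_mul h1 ((hP.le e).trans h3) (norm_nonneg _) ha0)
  have t2 : ‖ω (P v) (v' - P v')‖ ≤ b + a * d := by
    have e1 : ω (P v) (v' - P v') = c' * ω (P v') (v' - P v') + ω (P e') (v' - P v') := by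
      conv_lhs => rw [h0']
      simp only [map_add, map_smul, LinearMap.add_apply, LinearMap.smul_apply, smul_eq_mul]
    have e2 : ω (P v') (v' - P v') = ω (P v') v' := by
      rw [map_sub, hP.iso, sub_zero]
    rw [e1, e2]
    refine (norm_add_le _ _).trans (add_le_add ?_ ?_)
    · rw [norm_mul]
      exact (mul_le_of_le_one_left (norm_nonneg _) hc1').trans h2'
    · calc ‖ω (P e') (v' - P v')‖ ≤ ‖P e'‖ * ‖v' - P v'‖ := hω.bd _ _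
        _ ≤ d * a := mul_le_mul ((hP.le e').trans he1) h1' (norm_nonneg _) hd0
        _ = a * d := mul_comm _ _
  have t3 : ‖ω (v - P v) (v' - P v')‖ ≤ a ^ 2 := by
    calc ‖ω (v - P v) (v' - P v')‖ ≤ ‖v - P v‖ * ‖v' - P v'‖ := hω.bd _ _
      _ ≤ a * a := mul_le_mul h1 h1' (norm_nonneg _) ha0
      _ = a ^ 2 := (sq _).symm
  rw [dec]
  calc _ ≤ (b + a * d) + (b + a * d) + a ^ 2 :=
        (norm_add_le _ _).trans (add_le_add ((norm_add_le _ _).trans (add_le_add t1 t2)) t3)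
    _ = _ := by ring

end Vale.Agent.P092.H878.CC
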