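import Vale.Agent.P092.H878.CCa
import Vale.Agent.P092.H283.Syn2

/-! # Carnot cells, part 2: entries, coverings, counting -/

set_option linter.unusedSectionVars false
set_option linter.unusedVariables false

namespace Vale.Agent.P092.H878.CC

open scoped InnerProductSpace ComplexConjugate
open Finset

variable {n : ℕ}

/-- the vectors -/
abbrev VV (n : ℕ) := EuclideanSpace ℂ (Fin n)

/-- index of the real coordinates of a point -/
abbrev Kp (n : ℕ) := Fin n × Fin n × Fin 2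

/-- real coordinates of a complex number -/
def cp (c : ℂ) (j : Fin 2) : ℝ := if j = 0 then c.re else c.im

lemma cp_sub (c d : ℂ) (j : Fin 2) : cp c j - cp d j = cp (c - d) j := by
  unfold cp; split_ifs <;> simp

lemma abs_cp_le (c : ℂ) (j : Fin 2) : |cp c j| ≤ ‖c‖ := by
  unfold cp; split_ifs
  · exact Complex.abs_re_le_norm c
  · exact Complex.abs_im_le_norm c

lemma norm_le_cp {c : ℂ} {e : ℝ} (h : ∀ j, |cp c j| ≤ e) : ‖c‖ ≤ 2 * e := by
  have h0 : |c.re| ≤ e := by simpa [cp] using h 0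
  have h1 : |c.im| ≤ e := by simpa [cp] using h 1
  have := Complex.norm_le_abs_re_add_abs_im c
  linarith

/-- the real coordinates of the projection on a vector -/
def pc (v : VV n) (i : Kp n) : ℝ := cp (v i.1 * conj (v i.2.1)) i.2.2

lemma coord_le (v : VV n) (i : Fin n) : ‖v i‖ ≤ ‖v‖ := PiLp.norm_apply_le v i

lemma pc_le {v : VV n} (hv : ‖v‖ = 1) (i : Kp n) : |pc v i| ≤ 1 := by
  refine (abs_cp_le _ _).trans ?_
  rw [norm_mul, RCLike.norm_conj]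
  exact mul_le_one₀ ((coord_le v _).trans hv.le) (norm_nonneg _) ((coord_le v _).trans hv.le)

lemma norm_le_sum (v : VV n) : ‖v‖ ≤ ∑ i, ‖v i‖ := by
  have h : v = ∑ i, (v i) • (EuclideanSpace.single i (1 : ℂ) : VV n) := by
    ext j
    rw [WithLp.ofLp_sum, Finset.sum_apply, Finset.sum_eq_single j]
    · simp
    · intro i _ hi
      simp [Ne.symm hi]
    · simp
  calc ‖v‖ = ‖∑ i, (v i) • (EuclideanSpace.single i (1 : ℂ) : VV n)‖ := by rw [← h]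
    _ ≤ ∑ i, ‖(v i) • (EuclideanSpace.single i (1 : ℂ) : VV n)‖ := norm_sum_le _ _
    _ = ∑ i, ‖v i‖ := by
      apply Finset.sum_congr rfl
      intro i _
      rw [norm_smul]
      simp

/-- near coordinates give a small remainder -/
lemma rm_le_pc {v v' : VV n} (hv : ‖v‖ = 1) (hv' : ‖v'‖ = 1) {e : ℝ} (he : 0 ≤ e)
    (h : ∀ i, |pc v' i - pc v i| ≤ e) : ‖rm v v'‖ ≤ 2 * n ^ 2 * e := by
  have hcoord : ∀ i, ‖(rm v v') i‖ ≤ n * (2 * e) := by
    intro i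
    have h1 : (rm v v') i = ∑ j, (v' i * conj (v' j) - v i * conj (v j)) * v' j := by
      have h2 : ∑ j, conj (v' j) * v' j = 1 := by
        have h5 : ⟪v', v'⟫_ℂ = 1 := by
          rw [inner_self_eq_norm_sq_to_K, hv']; simp
        rw [← h5, PiLp.inner_apply]
        apply Finset.sum_congr rfl
        intro j _
        rw [RCLike.inner_apply, mul_comm]
      have h3 : ⟪v, v'⟫_ℂ = ∑ j, conj (v j) * v' j := by
        rw [PiLp.inner_apply]
        apply Finset.sum_congr rfl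
        intro j _
        simp [mul_comm]
      calc (rm v v') i = v' i - ⟪v, v'⟫_ℂ * v i := by simp [rm]
        _ = v' i * (∑ j, conj (v' j) * v' j) - (∑ j, conj (v j) * v' j) * v i := by
            rw [h2, h3, mul_one]
        _ = ∑ j, (v' i * conj (v' j) - v i * conj (v j)) * v' j := by
            rw [Finset.mul_sum, Finset.sum_mul, ← Finset.sum_sub_distrib]
            exact Finset.sum_congr rfl fun j _ => by ring
    rw [h1]
    refine (norm_sum_le _ _).trans ?_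
    calc ∑ j, ‖(v' i * conj (v' j) - v i * conj (v j)) * v' j‖ ≤ ∑ _j : Fin n, 2 * e := by
          apply Finset.sum_le_sum
          intro j _
          rw [norm_mul]
          have h4 : ‖v' i * conj (v' j) - v i * conj (v j)‖ ≤ 2 * e := by
            apply norm_le_cp
            intro l
            rw [← cp_sub]
            exact h (i, j, l)
          calc ‖v' i * conj (v' j) - v i * conj (v j)‖ * ‖v' j‖ ≤ 2 * e * 1 :=
                mul_le_mul h4 ((coord_le v' j).trans hv'.le) (norm_nonneg _) (by positivity)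
            _ = 2 * e := mul_one _
      _ = n * (2 * e) := by simp
  refine (norm_le_sum _).trans ?_
  calc ∑ i, ‖(rm v v') i‖ ≤ ∑ _i : Fin n, n * (2 * e) := Finset.sum_le_sum fun i _ => hcoord i
    _ = 2 * n ^ 2 * e := by simp; ring

/-- near vectors up to a phase have near coordinates -/
lemma pc_sub_le {v y : VV n} (hv : ‖v‖ = 1) (hy : ‖y‖ = 1) {μ : ℂ} (hμ : ‖μ‖ = 1) {d : ℝ}
    (h : ‖v - μ • y‖ ≤ d) (i : Kp n) : |pc v i - pc y i| ≤ 2 * d := by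
  unfold pc
  rw [cp_sub]
  refine (abs_cp_le _ _).trans ?_
  have hmm : μ * conj μ = 1 := by
    rw [Complex.mul_conj, Complex.normSq_eq_norm_sq, hμ]; simp
  set w := μ • y with hw
  have e1 : y i.1 * conj (y i.2.1) = w i.1 * conj (w i.2.1) := by
    have : w i.1 * conj (w i.2.1) = (μ * conj μ) * (y i.1 * conj (y i.2.1)) := by
      simp only [hw, PiLp.smul_apply, smul_eq_mul, map_mul]; ring
    rw [this, hmm, one_mul]
  have e2 : v i.1 * conj (v i.2.1) - w i.1 * conj (w i.2.1) =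
      (v - w) i.1 * conj (v i.2.1) + w i.1 * conj ((v - w) i.2.1) := by
    simp only [PiLp.sub_apply, map_sub]; ring
  have hwn : ‖w‖ = 1 := by rw [hw, norm_smul, hμ, hy, one_mul]
  rw [e1, e2]
  refine (norm_add_le _ _).trans ?_
  rw [norm_mul, norm_mul, RCLike.norm_conj, RCLike.norm_conj]
  have a1 := (coord_le (v - w) i.1).trans h
  have a2 := (coord_le (v - w) i.2.1).trans h
  have a3 := (coord_le v i.2.1).trans hv.le
  have a4 := (coord_le w i.1).trans hwn.le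
  have hd : 0 ≤ d := (norm_nonneg _).trans h
  calc ‖(v - w) i.1‖ * ‖v i.2.1‖ + ‖w i.1‖ * ‖(v - w) i.2.1‖ ≤ d * 1 + 1 * d :=
        add_le_add (mul_le_mul a1 a3 (norm_nonneg _) hd) (mul_le_mul a4 a2 (norm_nonneg _) zero_le_one)
    _ = 2 * d := by ring

variable {P : VV n →ₗ[ℂ] VV n}

/-- the normalised vector -/
noncomputable def nz (y : VV n) : VV n := ((‖y‖⁻¹ : ℝ) : ℂ) • y

lemma nz_norm {y : VV n} (hy : y ≠ 0) : ‖nz y‖ = 1 := by
  unfold nz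
  rw [norm_smul, Complex.norm_real, norm_inv, norm_norm, inv_mul_cancel₀ (norm_ne_zero_iff.mpr hy)]

/-- the point with parameter `ζ` of a line -/
noncomputable def lp (a b : VV n) (ζ : ℂ) : VV n := nz (a + ζ • b)

lemma lp_ne {a b : VV n} (h : Bs P a b) (ζ : ℂ) : a + ζ • b ≠ 0 := by
  intro h0
  have h1 : ⟪a, a + ζ • b⟫_ℂ = 1 := by
    rw [inner_add_right, inner_smul_right, h.aa, h.ab]; ring
  rw [h0, inner_zero_right] at h1
  exact zero_ne_one h1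

lemma lp_norm {a b : VV n} (h : Bs P a b) (ζ : ℂ) : ‖lp a b ζ‖ = 1 := nz_norm (lp_ne h ζ)

lemma cover_vec {a b : VV n} (hb : Bs P a b) {v : VV n} (hv : ‖v‖ = 1) {ε ε' : ℝ}
    (hn : ‖v - P v‖ ≤ ε) (h1 : ⟪a, v⟫_ℂ ≠ 0) {ζ : ℂ}
    (hζ : ‖⟪b, v⟫_ℂ / ⟪a, v⟫_ℂ - ζ‖ ≤ ε') :
    ∃ μ : ℂ, ‖μ‖ = 1 ∧ ‖v - μ • lp a b ζ‖ ≤ 2 * (ε + ε') := by
  set c := ⟪a, v⟫_ℂ with hc
  set y : VV n := a + ζ • b with hy
  have hy0 : y ≠ 0 := lp_ne hb ζ
  have hyn : 0 < ‖y‖ := norm_pos_iff.mpr hy0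
  have hcn : 0 < ‖c‖ := norm_pos_iff.mpr h1
  have hc1 : ‖c‖ ≤ 1 := inner_le_one hb.na hv
  have e1 : v - c • y = (v - P v) + (c * (⟪b, v⟫_ℂ / c - ζ)) • b := by
    have : P v = c • a + ⟪b, v⟫_ℂ • b := hb.fm v
    have h2 : c * (⟪b, v⟫_ℂ / c - ζ) = ⟪b, v⟫_ℂ - c * ζ := by field_simp
    rw [this, h2, hy]
    module
  have n1 : ‖v - c • y‖ ≤ ε + ε' := by
    rw [e1]
    refine (norm_add_le _ _).trans (add_le_add hn ?_)
    rw [norm_smul, norm_mul, hb.nb, mul_one]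
    calc ‖c‖ * ‖⟪b, v⟫_ℂ / c - ζ‖ ≤ 1 * ε' := mul_le_mul hc1 hζ (norm_nonneg _) zero_le_one
      _ = ε' := one_mul _
  refine ⟨c / (‖c‖ : ℂ), ?_, ?_⟩
  · rw [norm_div, Complex.norm_real, norm_norm, div_self hcn.ne']
  · have e2 : (c / (‖c‖ : ℂ)) • lp a b ζ = (((‖c‖ * ‖y‖)⁻¹ : ℝ) : ℂ) • (c • y) := by
      unfold lp nz
      rw [← hy, smul_smul, smul_smul]
      congr 1
      have : (‖c‖ : ℂ) ≠ 0 := by exact_mod_cast hcn.ne'
      have h3 : (‖y‖ : ℂ) ≠ 0 := by exact_mod_cast hyn.ne'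
      push_cast
      field_simp
    have hn2 : ‖c • y‖ = ‖c‖ * ‖y‖ := norm_smul _ _
    have hpos : 0 < ‖c‖ * ‖y‖ := mul_pos hcn hyn
    have n2 : ‖c • y - (((‖c‖ * ‖y‖)⁻¹ : ℝ) : ℂ) • (c • y)‖ = |‖c‖ * ‖y‖ - 1| := by
      have : c • y - (((‖c‖ * ‖y‖)⁻¹ : ℝ) : ℂ) • (c • y) =
          ((1 - (‖c‖ * ‖y‖)⁻¹ : ℝ) : ℂ) • (c • y) := by
        push_cast; module
      rw [this, norm_smul, hn2, Complex.norm_real, Real.norm_eq_abs]
      rw [← abs_of_pos hpos, ← abs_mul, abs_of_pos hpos]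
      congr 1
      field_simp
    have n3 : |‖c‖ * ‖y‖ - 1| ≤ ε + ε' := by
      rw [← hn2, ← hv]
      refine (abs_norm_sub_norm_le _ _).trans ?_
      rw [norm_sub_rev]
      exact n1
    rw [e2]
    calc ‖v - (((‖c‖ * ‖y‖)⁻¹ : ℝ) : ℂ) • (c • y)‖
        = ‖(v - c • y) + (c • y - (((‖c‖ * ‖y‖)⁻¹ : ℝ) : ℂ) • (c • y))‖ := by congr 1; abel
      _ ≤ ‖v - c • y‖ + ‖c • y - (((‖c‖ * ‖y‖)⁻¹ : ℝ) : ℂ) • (c • y)‖ := norm_add_le _ _
      _ ≤ (ε + ε') + (ε + ε') := add_le_add n1 (n2.le.trans n3)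
      _ = 2 * (ε + ε') := by ring

/-- the grid point of a line -/
noncomputable def gz (N : ℕ) (k : ℤ × ℤ) : ℂ := ((k.1 : ℝ) / N : ℝ) + ((k.2 : ℝ) / N : ℝ) * Complex.I

lemma exists_gz {N : ℕ} (hN : 0 < N) {R : ℝ} (hR : 0 ≤ R) {ζ : ℂ} (h : ‖ζ‖ ≤ R) :
    ∃ k ∈ (Finset.Icc (-(⌈N * R⌉ + 1)) (⌈N * R⌉ + 1)) ×ˢ (Finset.Icc (-(⌈N * R⌉ + 1)) (⌈N * R⌉ + 1)),
      ‖ζ - gz N k‖ ≤ 2 / N := by
  have hN' : (0 : ℝ) < N := by exact_mod_cast hN
  have key : ∀ t : ℝ, |t| ≤ R → ⌊N * t⌋ ∈ Finset.Icc (-(⌈N * R⌉ + 1)) (⌈N * R⌉ + 1) ∧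
      |t - (⌊N * t⌋ : ℝ) / N| ≤ 1 / N := by
    intro t ht
    have h1 := Int.floor_le (N * t)
    have h2 := Int.lt_floor_add_one (N * t)
    have h3 := Int.le_ceil (N * R)
    have h4 : |(N : ℝ) * t| ≤ N * R := by
      rw [abs_mul, abs_of_pos hN']; exact mul_le_mul_of_nonneg_left ht hN'.le
    obtain ⟨h5, h6⟩ := abs_le.mp h4
    constructor
    · rw [Finset.mem_Icc]
      constructor
      · have : (-(⌈N * R⌉ + 1) : ℝ) < ⌊N * t⌋ + 1 := by push_cast; linarith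
        have h7 : -(⌈N * R⌉ + 1) < ⌊(N:ℝ) * t⌋ + 1 := by exact_mod_cast this
        omega
      · have : (⌊N * t⌋ : ℝ) ≤ ⌈N * R⌉ := by linarith
        have h7 : ⌊(N:ℝ) * t⌋ ≤ ⌈(N:ℝ) * R⌉ := by exact_mod_cast this
        omega
    · have : t - (⌊N * t⌋ : ℝ) / N = (N * t - ⌊N * t⌋) / N := by field_simp
      rw [this, abs_div, abs_of_pos hN']
      apply div_le_div_of_nonneg_right _ hN'.le
      rw [abs_le]; constructor <;> linarith
  obtain ⟨a1, a2⟩ := key ζ.re ((Complex.abs_re_le_norm ζ).trans h)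
  obtain ⟨b1, b2⟩ := key ζ.im ((Complex.abs_im_le_norm ζ).trans h)
  refine ⟨(⌊N * ζ.re⌋, ⌊N * ζ.im⌋), Finset.mem_product.mpr ⟨a1, b1⟩, ?_⟩
  refine (Complex.norm_le_abs_re_add_abs_im _).trans ?_
  have e1 : (ζ - gz N (⌊N * ζ.re⌋, ⌊N * ζ.im⌋)).re = ζ.re - (⌊N * ζ.re⌋ : ℝ) / N := by
    simp [gz, Complex.sub_re]
  have e2 : (ζ - gz N (⌊N * ζ.re⌋, ⌊N * ζ.im⌋)).im = ζ.im - (⌊N * ζ.im⌋ : ℝ) / N := by
    simp [gz, Complex.sub_im]
  rw [e1, e2]
  calc _ ≤ 1 / (N : ℝ) + 1 / N := add_le_add a2 b2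
    _ = 2 / N := by ring

/-- **counting in one chart of a line** -/
theorem count_chart {a b : VV n} (hb : Bs P a b) {N : ℕ} (hN : 0 < N) {R A : ℝ} (hR : 0 ≤ R)
    (hA : 0 ≤ A) (T : Finset (Kp n → ℤ))
    (hT : ∀ α ∈ T, ∃ v : VV n, ‖v‖ = 1 ∧ (∀ i, |N * pc v i - α i| ≤ 1) ∧ ‖v - P v‖ ≤ A / N ∧
      1 / 2 ≤ ‖⟪a, v⟫_ℂ‖ ∧ 2 * ‖⟪b, v⟫_ℂ‖ ≤ R) :
    (T.card : ℝ) ≤ (2 * N * R + 5) ^ 2 * (2 * (1 + 4 * (A + 2)) + 2) ^ Fintype.card (Kp n) := by
  classical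
  have hN' : (0 : ℝ) < N := by exact_mod_cast hN
  set G := (Finset.Icc (-(⌈N * R⌉ + 1)) (⌈N * R⌉ + 1)) ×ˢ (Finset.Icc (-(⌈N * R⌉ + 1)) (⌈N * R⌉ + 1))
    with hG
  have hsub : T ⊆ G.biUnion (fun k => T.filter (fun α => ∀ i, |(α i : ℝ) - N * pc (lp a b (gz N k)) i| ≤
      1 + 4 * (A + 2))) := by
    intro α hα
    obtain ⟨v, hv, h1, h2, h3, h4⟩ := hT α hα
    have ha0 : ⟪a, v⟫_ℂ ≠ 0 := by
      intro h0; rw [h0, norm_zero] at h3; linarith
    have hζ : ‖⟪b, v⟫_ℂ / ⟪a, v⟫_ℂ‖ ≤ R := by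
      rw [norm_div, div_le_iff₀ (by linarith)]
      nlinarith [norm_nonneg ⟪b, v⟫_ℂ]
    obtain ⟨k, hk, hk2⟩ := exists_gz hN hR hζ
    obtain ⟨μ, hμ, hμ2⟩ := cover_vec hb hv h2 ha0 hk2
    rw [Finset.mem_biUnion]
    refine ⟨k, hk, Finset.mem_filter.mpr ⟨hα, fun i => ?_⟩⟩
    have h5 := pc_sub_le hv (lp_norm hb (gz N k)) hμ hμ2 i
    have h6 : |N * pc v i - N * pc (lp a b (gz N k)) i| ≤ 4 * (A + 2) := by
      rw [← mul_sub, abs_mul, abs_of_pos hN']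
      calc (N : ℝ) * |pc v i - pc (lp a b (gz N k)) i| ≤ N * (2 * (2 * (A / N + 2 / N))) :=
            mul_le_mul_of_nonneg_left h5 hN'.le
        _ = 4 * (A + 2) := by field_simp; ring
    calc |(α i : ℝ) - N * pc (lp a b (gz N k)) i|
        = |(N * pc v i - N * pc (lp a b (gz N k)) i) - (N * pc v i - α i)| := by ring_nf
      _ ≤ |N * pc v i - N * pc (lp a b (gz N k)) i| + |N * pc v i - α i| := abs_sub _ _
      _ ≤ 4 * (A + 2) + 1 := add_le_add h6 (h1 i)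
      _ = 1 + 4 * (A + 2) := by ring
  have h1 : (T.card : ℝ) ≤ ∑ k ∈ G, ((T.filter (fun α => ∀ i, |(α i : ℝ) -
      N * pc (lp a b (gz N k)) i| ≤ 1 + 4 * (A + 2))).card : ℝ) := by
    have := (Finset.card_le_card hsub).trans Finset.card_biUnion_le
    exact_mod_cast this
  refine h1.trans ?_
  calc ∑ k ∈ G, ((T.filter (fun α => ∀ i, |(α i : ℝ) -
      N * pc (lp a b (gz N k)) i| ≤ 1 + 4 * (A + 2))).card : ℝ)
      ≤ ∑ _k ∈ G, (2 * (1 + 4 * (A + 2)) + 2) ^ Fintype.card (Kp n) := by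
        apply Finset.sum_le_sum
        intro k _
        exact H283.Syn.card_near (1 + 4 * (A + 2)) (by positivity)
          (fun i => N * pc (lp a b (gz N k)) i) _ (fun α hα => (Finset.mem_filter.mp hα).2)
    _ = G.card * (2 * (1 + 4 * (A + 2)) + 2) ^ Fintype.card (Kp n) := by
        rw [Finset.sum_const, nsmul_eq_mul]
    _ ≤ (2 * N * R + 5) ^ 2 * (2 * (1 + 4 * (A + 2)) + 2) ^ Fintype.card (Kp n) := by
        apply mul_le_mul_of_nonneg_right _ (by positivity)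
        rw [hG, Finset.card_product]
        push_cast
        have h2 : ((Finset.Icc (-(⌈N * R⌉ + 1)) (⌈N * R⌉ + 1)).card : ℝ) ≤ 2 * N * R + 5 := by
          rw [Int.card_Icc]
          have h3 := Int.ceil_lt_add_one (N * R)
          have h0 : (0 : ℤ) ≤ ⌈(N : ℝ) * R⌉ := Int.ceil_nonneg (by positivity)
          have h4 : (((⌈(N:ℝ) * R⌉ + 1 + 1 - -(⌈(N:ℝ) * R⌉ + 1)).toNat : ℤ) : ℝ) ≤ 2 * N * R + 5 := by
            rw [Int.toNat_of_nonneg (by omega)]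
            push_cast
            linarith
          exact_mod_cast h4
        rw [← sq]
        exact pow_le_pow_left₀ (Nat.cast_nonneg _) h2 2

end Vale.Agent.P092.H878.CC
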