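import Vale.Agent.P092.H878.CCb

/-! # Carnot cells, part 3: the cells -/

set_option linter.unusedSectionVars false
set_option linter.unusedVariables false

namespace Vale.Agent.P092.H878.CC

open scoped InnerProductSpace ComplexConjugate
open Finset Vale.Agent.P092.H283.Syn

variable {n : ℕ} {ω : VV n →ₗ[ℂ] VV n →ₗ[ℂ] ℂ}

/-- data of the points and the planes -/
structure Dat (ω : VV n →ₗ[ℂ] VV n →ₗ[ℂ] ℂ) (Y Z : Type*) [TopologicalSpace Y]
    [TopologicalSpace Z] where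
  v : Y → VV n
  hv : ∀ x, ‖v x‖ = 1
  hc : ∀ i j, Continuous fun x => v x i * conj (v x j)
  P : Z → (VV n →ₗ[ℂ] VV n)
  hP : ∀ z, Pl ω (P z)
  hPc : ∀ y, Continuous fun z => P z y

variable {Y Z : Type*} [TopologicalSpace Y] [TopologicalSpace Z]

namespace Dat

variable (G : Dat ω Y Z)

/-- coarse coordinates -/
noncomputable def p (i : Kp n) : C(Y, ℝ) where
  toFun x := pc (G.v x) i
  continuous_toFun := by
    unfold pc cp
    split_ifs
    · exact Complex.continuous_re.comp (G.hc _ _)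
    · exact Complex.continuous_im.comp (G.hc _ _)

@[simp] lemma p_apply (i : Kp n) (x : Y) : G.p i x = pc (G.v x) i := rfl

lemma gg_cont (w : VV n) : Continuous fun x => gg ω w (G.v x) := by
  have h : (fun x => gg ω w (G.v x)) = fun x => ∑ i, ∑ j,
      (ω w (EuclideanSpace.single i (1 : ℂ)) * w j) * (G.v x i * conj (G.v x j)) := by
    funext x
    have h1 : G.v x = ∑ i, (G.v x i) • (EuclideanSpace.single i (1 : ℂ) : VV n) := by
      ext j
      rw [WithLp.ofLp_sum, Finset.sum_apply, Finset.sum_eq_single j]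
      · simp
      · intro i _ hi
        simp [Ne.symm hi]
      · simp
    have h2 : ω w (G.v x) = ∑ i, G.v x i * ω w (EuclideanSpace.single i (1 : ℂ)) := by
      conv_lhs => rw [h1]
      rw [map_sum]
      exact Finset.sum_congr rfl fun i _ => by rw [map_smul, smul_eq_mul]
    have h3 : ⟪G.v x, w⟫_ℂ = ∑ j, conj (G.v x j) * w j := by
      rw [PiLp.inner_apply]
      apply Finset.sum_congr rfl
      intro j _
      rw [RCLike.inner_apply, mul_comm]
    unfold gg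
    rw [h2, h3, Finset.sum_mul_sum]
    exact Finset.sum_congr rfl fun i _ => Finset.sum_congr rfl fun j _ => by ring
  rw [h]
  exact continuous_finsetSum _ fun i _ => continuous_finsetSum _ fun j _ =>
    continuous_const.mul (G.hc i j)

/-- fine coordinates of the coarse cell with centre `w` -/
noncomputable def g (w : VV n) (j : Fin 2) : C(Y, ℝ) where
  toFun x := cp (gg ω w (G.v x)) j
  continuous_toFun := by
    unfold cp
    split_ifs
    · exact Complex.continuous_re.comp (G.gg_cont w)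
    · exact Complex.continuous_im.comp (G.gg_cont w)

@[simp] lemma g_apply (w : VV n) (j : Fin 2) (x : Y) : G.g w j x = cp (gg ω w (G.v x)) j := rfl

/-- distance to a plane -/
noncomputable def nn (x : Y) (z : Z) : ℝ := ‖G.v x - G.P z (G.v x)‖

/-- contact coordinate -/
noncomputable def bb (x : Y) (z : Z) : ℝ := ‖ω (G.P z (G.v x)) (G.v x)‖

lemma nn_cont (x : Y) : Continuous (G.nn x) := (continuous_const.sub (G.hPc _)).norm

lemma bb_cont (hω : Alt ω) (x : Y) : Continuous (G.bb x) := by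
  have h : Continuous fun u : VV n => ω u (G.v x) := by
    have : Continuous (ω.flip (G.v x)) := LinearMap.continuous_of_finiteDimensional _
    exact this
  exact (h.comp (G.hPc _)).norm

/-- index of the cells -/
abbrev Ix (n : ℕ) := (Kp n → ℤ) × (Fin 2 → ℤ)

variable [Nonempty Y]

open Classical in
/-- centre of a coarse cell -/
noncomputable def x0 (N : ℕ) (α : Kp n → ℤ) : Y :=
  if h : ∃ x, cell N G.p α x ≠ 0 then h.choose else Classical.arbitrary Y

lemma x0_spec {N : ℕ} {α : Kp n → ℤ} {x : Y} (h : cell N G.p α x ≠ 0) :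
    cell N G.p α (G.x0 N α) ≠ 0 := by
  have h' : ∃ x, cell N G.p α x ≠ 0 := ⟨x, h⟩
  unfold x0
  rw [dif_pos h']
  exact h'.choose_spec

/-- the cell functions -/
noncomputable def φ (N : ℕ) (t : Ix n) : C(Y, ℝ) :=
  cell N G.p t.1 * cell (N ^ 2) (G.g (G.v (G.x0 N t.1))) t.2

open Classical in
/-- centre of a cell -/
noncomputable def xa (N : ℕ) (t : Ix n) : Y :=
  if h : ∃ x, G.φ N t x ≠ 0 then h.choose else Classical.arbitrary Y

lemma xa_spec {N : ℕ} {t : Ix n} {x : Y} (h : G.φ N t x ≠ 0) : G.φ N t (G.xa N t) ≠ 0 := by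
  have h' : ∃ x, G.φ N t x ≠ 0 := ⟨x, h⟩
  unfold xa
  rw [dif_pos h']
  exact h'.choose_spec

open Classical in
/-- the cells used -/
noncomputable def s (N : ℕ) : Finset (Ix n) :=
  ((cells N) ×ˢ (cells (N ^ 2))).filter fun t => ∃ x, G.φ N t x ≠ 0

lemma φ_nonneg (N : ℕ) (t : Ix n) (x : Y) : 0 ≤ G.φ N t x :=
  mul_nonneg (cell_nonneg _ _ _ _) (cell_nonneg _ _ _ _)

lemma g_le (hω : Alt ω) {w : VV n} (hw : ‖w‖ = 1) (j : Fin 2) (x : Y) : |G.g w j x| ≤ 1 :=
  (abs_cp_le _ _).trans (gg_le hω hw (G.hv x))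

lemma sum_φ (hω : Alt ω) (N : ℕ) (x : Y) : ∑ t ∈ G.s N, G.φ N t x = 1 := by
  classical
  have h1 : ∑ t ∈ G.s N, G.φ N t x = ∑ t ∈ (cells N) ×ˢ (cells (N ^ 2)), G.φ N t x := by
    apply Finset.sum_subset
    · intro t ht
      exact (Finset.mem_filter.mp ht).1
    · intro t ht ht'
      by_contra h
      exact ht' (Finset.mem_filter.mpr ⟨ht, x, h⟩)
  rw [h1, Finset.sum_product]
  have h2 : ∀ α ∈ (cells N : Finset (Kp n → ℤ)), ∑ β ∈ cells (N ^ 2), G.φ N (α, β) x = cell N G.p α x := by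
    intro α _
    have : ∀ β, G.φ N (α, β) x = cell N G.p α x * cell (N ^ 2) (G.g (G.v (G.x0 N α))) β x :=
      fun β => rfl
    simp_rw [this]
    rw [← Finset.mul_sum]
    have h3 := sum_cell (N ^ 2) (G.g (G.v (G.x0 N α))) (fun j x => G.g_le hω (G.hv _) j x) x
    rw [h3, mul_one]
  rw [Finset.sum_congr rfl h2]
  exact sum_cell N G.p (fun i x => pc_le (G.hv x) i) x

/-- a point is in the closed cell -/
structure In (N : ℕ) (t : Ix n) (x : Y) : Prop where
  c : ∀ i, |N * pc (G.v x) i - t.1 i| ≤ 1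
  f : ∀ j, |((N ^ 2 : ℕ) : ℝ) * cp (gg ω (G.v (G.x0 N t.1)) (G.v x)) j - t.2 j| ≤ 1

lemma in_of {N : ℕ} {t : Ix n} {x : Y} (h : G.φ N t x ≠ 0) : G.In N t x := by
  have h' : cell N G.p t.1 x * cell (N ^ 2) (G.g (G.v (G.x0 N t.1))) t.2 x ≠ 0 := h
  obtain ⟨h1, h2⟩ := mul_ne_zero_iff.mp h'
  exact ⟨fun i => cell_near h1 i, fun j => cell_near h2 j⟩

lemma in_of_tsupport {N : ℕ} {t : Ix n} {x : Y} (h : x ∈ tsupport (G.φ N t)) : G.In N t x := by
  have hcl : IsClosed {x : Y | G.In N t x} := by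
    have : {x : Y | G.In N t x} = {x | ∀ i, |N * G.p i x - t.1 i| ≤ 1} ∩
        {x | ∀ j, |((N ^ 2 : ℕ) : ℝ) * G.g (G.v (G.x0 N t.1)) j x - t.2 j| ≤ 1} := by
      ext x
      exact ⟨fun h => ⟨h.c, h.f⟩, fun h => ⟨h.1, h.2⟩⟩
    rw [this]
    apply IsClosed.inter
    · simp only [Set.ofPred_forall]
      exact isClosed_iInter fun i => isClosed_le (by fun_prop) continuous_const
    · simp only [Set.ofPred_forall]
      exact isClosed_iInter fun j => isClosed_le (by fun_prop) continuous_const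
  have : tsupport (⇑(G.φ N t)) ⊆ {x : Y | G.In N t x} :=
    closure_minimal (fun x hx => G.in_of hx) hcl
  exact this h

/-- the coarse constant -/
def DD (n : ℕ) : ℝ := 4 * n ^ 2 + 1

lemma DD_pos : 0 < DD n := by unfold DD; positivity

/-- the fine constant -/
def BB (n : ℕ) : ℝ := 16 + 13 * DD n ^ 2

lemma BB_pos : 0 < BB n := by unfold BB; positivity

lemma near_c {N : ℕ} (hN : 0 < N) {α : Kp n → ℤ} {x x' : Y} (h : ∀ i, |N * pc (G.v x) i - α i| ≤ 1)
    (h' : ∀ i, |N * pc (G.v x') i - α i| ≤ 1) (i : Kp n) : |pc (G.v x') i - pc (G.v x) i| ≤ 2 / N := by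
  have hN' : (0 : ℝ) < N := by exact_mod_cast hN
  rw [le_div_iff₀ hN']
  calc |pc (G.v x') i - pc (G.v x) i| * N
      = |(N * pc (G.v x') i - α i) - (N * pc (G.v x) i - α i)| := by
        rw [← abs_of_pos hN', ← abs_mul, abs_of_pos hN']; ring_nf
    _ ≤ |N * pc (G.v x') i - α i| + |N * pc (G.v x) i - α i| := abs_sub _ _
    _ ≤ 2 := by linarith [h i, h' i]

lemma rm_near {N : ℕ} (hN : 0 < N) {α : Kp n → ℤ} {x x' : Y}
    (h : ∀ i, |N * pc (G.v x) i - α i| ≤ 1) (h' : ∀ i, |N * pc (G.v x') i - α i| ≤ 1) :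
    ‖rm (G.v x) (G.v x')‖ ≤ DD n / N := by
  have hN' : (0 : ℝ) < N := by exact_mod_cast hN
  refine (rm_le_pc (G.hv x) (G.hv x') (by positivity) (G.near_c hN h h')).trans ?_
  rw [le_div_iff₀ hN']
  unfold DD
  have : 2 * (n : ℝ) ^ 2 * (2 / N) * N = 4 * n ^ 2 := by field_simp; ring
  linarith

/-- the coarse cell of `t` contains its centre -/
lemma x0_near {N : ℕ} {t : Ix n} (ht : t ∈ G.s N) :
    ∀ i, |N * pc (G.v (G.x0 N t.1)) i - t.1 i| ≤ 1 := by
  classical
  obtain ⟨x, hx⟩ := (Finset.mem_filter.mp ht).2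
  have h' : cell N G.p t.1 x * cell (N ^ 2) (G.g (G.v (G.x0 N t.1))) t.2 x ≠ 0 := hx
  exact fun i => cell_near (G.x0_spec (mul_ne_zero_iff.mp h').1) i

lemma xa_in {N : ℕ} {t : Ix n} (ht : t ∈ G.s N) : G.In N t (G.xa N t) := by
  classical
  obtain ⟨x, hx⟩ := (Finset.mem_filter.mp ht).2
  exact G.in_of (G.xa_spec hx)

/-- two points of a fine cell are contact-near -/
lemma om_near (hω : Alt ω) {N : ℕ} (hN : 2 * DD n ≤ N) {t : Ix n} (ht : t ∈ G.s N) {x x' : Y}
    (h : G.In N t x) (h' : G.In N t x') : ‖ω (G.v x) (G.v x')‖ ≤ (16 + 12 * DD n ^ 2) / N ^ 2 := by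
  have hD := DD_pos (n := n)
  have hN' : (0 : ℝ) < N := by linarith
  have hN0 : 0 < N := by exact_mod_cast hN'
  have h1 := G.rm_near hN0 (G.x0_near ht) h.c
  have h2 := G.rm_near hN0 (G.x0_near ht) h'.c
  have hd : DD n / N ≤ 1 / 2 := by rw [div_le_iff₀ hN']; linarith
  have h3 := om_le hω (G.hv (G.x0 N t.1)) (G.hv x) (G.hv x') hd h1 h2
  have h4 : ‖gg ω (G.v (G.x0 N t.1)) (G.v x) - gg ω (G.v (G.x0 N t.1)) (G.v x')‖ ≤
      2 * (2 / N ^ 2) := by
    apply norm_le_cp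
    intro j
    rw [← cp_sub, le_div_iff₀ (by positivity)]
    have a1 := h.f j
    have a2 := h'.f j
    push_cast at a1 a2
    have hN2 : (0 : ℝ) < (N : ℝ) ^ 2 := by positivity
    calc |cp (gg ω (G.v (G.x0 N t.1)) (G.v x)) j - cp (gg ω (G.v (G.x0 N t.1)) (G.v x')) j| * N ^ 2
        = |(N ^ 2 * cp (gg ω (G.v (G.x0 N t.1)) (G.v x)) j - t.2 j) -
          (N ^ 2 * cp (gg ω (G.v (G.x0 N t.1)) (G.v x')) j - t.2 j)| := by
          rw [← abs_of_pos hN2, ← abs_mul, abs_of_pos hN2]; ring_nf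
      _ ≤ |N ^ 2 * cp (gg ω (G.v (G.x0 N t.1)) (G.v x)) j - t.2 j| +
          |N ^ 2 * cp (gg ω (G.v (G.x0 N t.1)) (G.v x')) j - t.2 j| := abs_sub _ _
      _ ≤ 2 := by linarith
  refine h3.trans ?_
  calc 4 * (‖gg ω (G.v (G.x0 N t.1)) (G.v x) - gg ω (G.v (G.x0 N t.1)) (G.v x')‖ +
        3 * (DD n / N) ^ 2) ≤ 4 * (2 * (2 / N ^ 2) + 3 * (DD n / N) ^ 2) := by
        gcongr
    _ = (16 + 12 * DD n ^ 2) / N ^ 2 := by field_simp; ring

/-- the cut-offs -/
noncomputable def ψ (hω : Alt ω) (N : ℕ) (t : Ix n) : C(Z, ℝ) where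
  toFun z := cut (2 * DD n) (N * G.nn (G.xa N t) z) * cut (2 * BB n) (N ^ 2 * G.bb (G.xa N t) z)
  continuous_toFun := by
    have h1 := G.nn_cont (G.xa N t)
    have h2 := G.bb_cont hω (G.xa N t)
    exact ((continuous_cut _).comp (continuous_const.mul h1)).mul
      ((continuous_cut _).comp (continuous_const.mul h2))

lemma ψ_nonneg (hω : Alt ω) (N : ℕ) (t : Ix n) (z : Z) : 0 ≤ G.ψ hω N t z :=
  mul_nonneg (cut_nonneg _ _) (cut_nonneg _ _)

lemma ψ_le (hω : Alt ω) (N : ℕ) (t : Ix n) (z : Z) : G.ψ hω N t z ≤ 1 :=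
  mul_le_one₀ (cut_le_one _ _) (cut_nonneg _ _) (cut_le_one _ _)

lemma ψ_nn (hω : Alt ω) {N : ℕ} (hN : 0 < N) {t : Ix n} {z : Z} (h : G.ψ hω N t z ≠ 0) :
    G.nn (G.xa N t) z ≤ 4 * DD n / N := by
  have hN' : (0 : ℝ) < N := by exact_mod_cast hN
  rw [le_div_iff₀ hN']
  by_contra hlt
  push Not at hlt
  apply h
  have hD := DD_pos (n := n)
  have : cut (2 * DD n) (N * G.nn (G.xa N t) z) = 0 := cut_zero (by positivity) (by nlinarith)
  change cut (2 * DD n) (N * G.nn (G.xa N t) z) * _ = 0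
  rw [this, zero_mul]

lemma ψ_bb (hω : Alt ω) {N : ℕ} (hN : 0 < N) {t : Ix n} {z : Z} (h : G.ψ hω N t z ≠ 0) :
    G.bb (G.xa N t) z ≤ 4 * BB n / N ^ 2 := by
  have hN' : (0 : ℝ) < N := by exact_mod_cast hN
  rw [le_div_iff₀ (by positivity)]
  by_contra hlt
  push Not at hlt
  apply h
  have hD := BB_pos (n := n)
  have : cut (2 * BB n) (N ^ 2 * G.bb (G.xa N t) z) = 0 := cut_zero (by positivity) (by nlinarith)
  change _ * cut (2 * BB n) (N ^ 2 * G.bb (G.xa N t) z) = 0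
  rw [this, mul_zero]

/-- **(3) KILL** -/
lemma kill (hω : Alt ω) {N : ℕ} (hN : 2 * DD n ≤ N) {t : Ix n} (ht : t ∈ G.s N) {x : Y}
    (hx : x ∈ tsupport (G.φ N t)) {z : Z} (hz : z ∈ tsupport (⇑(1 - G.ψ hω N t))) :
    G.P z (G.v x) ≠ G.v x := by
  have hD := DD_pos (n := n)
  have hB := BB_pos (n := n)
  have hN' : (0 : ℝ) < N := by linarith
  have hN0 : 0 < N := by exact_mod_cast hN'
  intro hinc
  have hI := G.in_of_tsupport hx
  have hI' := G.xa_in ht
  have r1 := G.rm_near hN0 hI.c hI'.c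
  have n1 : G.nn (G.xa N t) z ≤ DD n / N := by
    have h0 := nn_le (G.hP z) (G.hv x) (G.hv (G.xa N t))
    rw [hinc, sub_self, norm_zero, zero_add] at h0
    exact h0.trans r1
  have b1 : G.bb (G.xa N t) z ≤ BB n / N ^ 2 := by
    refine (bb_le hω (G.hP z) (G.hv x) (G.hv (G.xa N t)) hinc).trans ?_
    have o1 := G.om_near hω hN ht hI hI'
    have r2 : ‖rm (G.v x) (G.v (G.xa N t))‖ ^ 2 ≤ (DD n / N) ^ 2 :=
      pow_le_pow_left₀ (norm_nonneg _) r1 2
    calc _ ≤ (16 + 12 * DD n ^ 2) / N ^ 2 + (DD n / N) ^ 2 := add_le_add o1 r2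
      _ = BB n / N ^ 2 := by unfold BB; field_simp; ring
  have hcl : IsClosed ({z : Z | 2 * DD n ≤ N * G.nn (G.xa N t) z} ∪
      {z : Z | 2 * BB n ≤ N ^ 2 * G.bb (G.xa N t) z}) :=
    (isClosed_le continuous_const (continuous_const.mul (G.nn_cont _))).union
      (isClosed_le continuous_const (continuous_const.mul (G.bb_cont hω _)))
  have hsub : tsupport (⇑(1 - G.ψ hω N t)) ⊆ ({z : Z | 2 * DD n ≤ N * G.nn (G.xa N t) z} ∪
      {z : Z | 2 * BB n ≤ N ^ 2 * G.bb (G.xa N t) z}) := by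
    apply closure_minimal _ hcl
    intro z hz
    by_contra hc
    rw [Set.mem_union, not_or] at hc
    obtain ⟨c1, c2⟩ := hc
    have c1' : N * G.nn (G.xa N t) z < 2 * DD n := not_le.mp c1
    have c2' : N ^ 2 * G.bb (G.xa N t) z < 2 * BB n := not_le.mp c2
    apply hz
    have : G.ψ hω N t z = 1 := by
      change cut (2 * DD n) (N * G.nn (G.xa N t) z) *
        cut (2 * BB n) (N ^ 2 * G.bb (G.xa N t) z) = 1
      rw [cut_one (by positivity) c1'.le, cut_one (by positivity) c2'.le, one_mul]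
    simp [this]
  rcases hsub hz with h | h
  · have h' : 2 * DD n ≤ N * G.nn (G.xa N t) z := h
    have : N * G.nn (G.xa N t) z ≤ DD n := by
      calc N * G.nn (G.xa N t) z ≤ N * (DD n / N) := mul_le_mul_of_nonneg_left n1 hN'.le
        _ = DD n := by field_simp
    linarith
  · have h' : 2 * BB n ≤ N ^ 2 * G.bb (G.xa N t) z := h
    have : N ^ 2 * G.bb (G.xa N t) z ≤ BB n := by
      calc N ^ 2 * G.bb (G.xa N t) z ≤ N ^ 2 * (BB n / N ^ 2) :=
            mul_le_mul_of_nonneg_left b1 (by positivity)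
        _ = BB n := by field_simp
    linarith

end Dat

end Vale.Agent.P092.H878.CC
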