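import Vale.Agent.P092.H878.CCc

/-! # Carnot cells, part 4: the counts -/

set_option linter.unusedSectionVars false
set_option linter.unusedVariables false

namespace Vale.Agent.P092.H878.CC

open scoped InnerProductSpace ComplexConjugate
open Finset Vale.Agent.P092.H283.Syn

variable {n : ℕ} {ω : VV n →ₗ[ℂ] VV n →ₗ[ℂ] ℂ}
variable {Y Z : Type*} [TopologicalSpace Y] [TopologicalSpace Z]

lemma Bs.swap {P : VV n →ₗ[ℂ] VV n} {a b : VV n} (h : Bs P a b) : Bs P b a :=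
  ⟨h.nb, h.na, h.ba, fun y => by rw [h.fm, add_comm]⟩

namespace Dat

variable (G : Dat ω Y Z) [Nonempty Y]

/-- constant of the fine count -/
def EE (n : ℕ) : ℝ := 8 * BB n + 27 * DD n ^ 2

lemma EE_pos : 0 < EE n := by
  have := BB_pos (n := n)
  unfold EE; positivity

/-- boundedly many fine cells per coarse cell and plane -/
lemma fiber (hω : Alt ω) {N : ℕ} (hN : 2 * DD n ≤ N) {z : Z} {α : Kp n → ℤ} (T : Finset (Ix n))
    (hT : ∀ t ∈ T, t ∈ G.s N ∧ G.ψ hω N t z ≠ 0 ∧ t.1 = α) :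
    (T.card : ℝ) ≤ (2 * (2 + EE n) + 2) ^ 2 := by
  classical
  have hD := DD_pos (n := n)
  have hB := BB_pos (n := n)
  have hE := EE_pos (n := n)
  have hN' : (0 : ℝ) < N := by linarith
  have hN0 : 0 < N := by exact_mod_cast hN'
  rcases T.eq_empty_or_nonempty with h0 | ⟨t₀, ht₀⟩
  · rw [h0]
    simp only [Finset.card_empty, Nat.cast_zero]
    positivity
  have hinj : Set.InjOn (fun t : Ix n => t.2) T := by
    intro t ht t' ht' h
    exact Prod.ext (((hT t ht).2.2).trans ((hT t' ht').2.2).symm) h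
  have hcard : T.card = (T.image (fun t : Ix n => t.2)).card := (Finset.card_image_of_injOn hinj).symm
  rw [hcard]
  have h1 := card_near (κ := Fin 2) (2 + EE n) (by positivity) (fun j => (t₀.2 j : ℝ))
    (T.image (fun t : Ix n => t.2)) ?_
  · rw [Fintype.card_fin] at h1
    exact h1
  · intro β hβ j
    obtain ⟨t, ht, rfl⟩ := Finset.mem_image.mp hβ
    obtain ⟨s1, p1, e1⟩ := hT t ht
    obtain ⟨s0, p0, e0⟩ := hT t₀ ht₀
    have I1 := G.xa_in s1
    have I0 := G.xa_in s0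
    set x := G.xa N t with hx
    set x' := G.xa N t₀ with hx'
    set w := G.v (G.x0 N α) with hw
    have r1 : ‖rm w (G.v x)‖ ≤ DD n / N := by
      have := G.rm_near hN0 (G.x0_near s1) I1.c
      rw [e1] at this
      exact this
    have r0 : ‖rm w (G.v x')‖ ≤ DD n / N := by
      have := G.rm_near hN0 (G.x0_near s0) I0.c
      rw [e0] at this
      exact this
    have c0 : ∀ i, |N * pc (G.v x') i - t.1 i| ≤ 1 := by
      intro i
      rw [e1, ← e0]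
      exact I0.c i
    have r2 : ‖rm (G.v x) (G.v x')‖ ≤ DD n / N := G.rm_near hN0 I1.c c0
    have o1 := om_le_pl hω (G.hP z) (G.hv x) (G.hv x') (G.ψ_nn hω hN0 p1) (G.ψ_nn hω hN0 p0)
      (G.ψ_bb hω hN0 p1) (G.ψ_bb hω hN0 p0) r2
    have g1 := gg_sub_le hω (G.hv (G.x0 N α)) (G.hv x) (G.hv x') r1 r0
    have g2 : ‖gg ω w (G.v x) - gg ω w (G.v x')‖ ≤ EE n / N ^ 2 := by
      refine g1.trans ?_
      calc ‖ω (G.v x) (G.v x')‖ + 3 * (DD n / N) ^ 2
          ≤ (2 * (4 * BB n / N ^ 2) + 2 * (4 * DD n / N) * (DD n / N) + (4 * DD n / N) ^ 2) +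
            3 * (DD n / N) ^ 2 := by gcongr
        _ = EE n / N ^ 2 := by unfold EE; field_simp; ring
    have g3 : |cp (gg ω w (G.v x)) j - cp (gg ω w (G.v x')) j| ≤ EE n / N ^ 2 := by
      rw [cp_sub]
      exact (abs_cp_le _ _).trans g2
    have f1 := I1.f j
    have f0 := I0.f j
    rw [e1, ← hw] at f1
    rw [e0, ← hw] at f0
    push_cast at f1 f0
    have hN2 : (0 : ℝ) < (N : ℝ) ^ 2 := by positivity
    have g4 : |(N : ℝ) ^ 2 * cp (gg ω w (G.v x)) j - N ^ 2 * cp (gg ω w (G.v x')) j| ≤ EE n := by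
      rw [← mul_sub, abs_mul, abs_of_pos hN2]
      calc (N : ℝ) ^ 2 * |cp (gg ω w (G.v x)) j - cp (gg ω w (G.v x')) j| ≤ N ^ 2 * (EE n / N ^ 2) :=
            mul_le_mul_of_nonneg_left g3 hN2.le
        _ = EE n := by field_simp
    change |((t.2 j : ℤ) : ℝ) - (t₀.2 j : ℝ)| ≤ 2 + EE n
    obtain ⟨a1, a2⟩ := abs_le.mp f1
    obtain ⟨b1, b2⟩ := abs_le.mp f0
    obtain ⟨d1, d2⟩ := abs_le.mp g4
    rw [abs_le]
    constructor <;> linarith

/-- the constant of the chart count -/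
noncomputable def KK (n : ℕ) : ℝ :=
  (2 * (1 + 4 * (4 * DD n + 2)) + 2) ^ Fintype.card (Kp n) * (2 * (2 + EE n) + 2) ^ 2

lemma KK_pos : 0 < KK n := by
  have hD := DD_pos (n := n)
  have hE := EE_pos (n := n)
  unfold KK; positivity

/-- **count of the cells in one chart of a line** -/
lemma count_ix (hω : Alt ω) {N : ℕ} (hN : 2 * DD n ≤ N) {z : Z} {a b : VV n} (hb : Bs (G.P z) a b)
    {R : ℝ} (hR : 0 ≤ R) (T : Finset (Ix n))
    (hT : ∀ t ∈ T, t ∈ G.s N ∧ G.ψ hω N t z ≠ 0 ∧ 1 / 2 ≤ ‖⟪a, G.v (G.xa N t)⟫_ℂ‖ ∧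
      2 * ‖⟪b, G.v (G.xa N t)⟫_ℂ‖ ≤ R) :
    (T.card : ℝ) ≤ (2 * N * R + 5) ^ 2 * KK n := by
  classical
  have hD := DD_pos (n := n)
  have hE := EE_pos (n := n)
  have hN' : (0 : ℝ) < N := by linarith
  have hN0 : 0 < N := by exact_mod_cast hN'
  have h1 : (T.card : ℝ) = ∑ α ∈ T.image Prod.fst, ((T.filter fun t => t.1 = α).card : ℝ) := by
    have := Finset.card_eq_sum_card_image (Prod.fst : Ix n → _) T
    exact_mod_cast this
  rw [h1]
  calc ∑ α ∈ T.image Prod.fst, ((T.filter fun t => t.1 = α).card : ℝ)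
      ≤ ∑ _α ∈ T.image Prod.fst, (2 * (2 + EE n) + 2) ^ 2 := by
        apply Finset.sum_le_sum
        intro α _
        apply G.fiber hω hN (z := z) (α := α)
        intro t ht
        obtain ⟨ht1, ht2⟩ := Finset.mem_filter.mp ht
        obtain ⟨q1, q2, -, -⟩ := hT t ht1
        exact ⟨q1, q2, ht2⟩
    _ = ((T.image Prod.fst).card : ℝ) * (2 * (2 + EE n) + 2) ^ 2 := by
        rw [Finset.sum_const, nsmul_eq_mul]
    _ ≤ ((2 * N * R + 5) ^ 2 * (2 * (1 + 4 * (4 * DD n + 2)) + 2) ^ Fintype.card (Kp n)) *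
        (2 * (2 + EE n) + 2) ^ 2 := by
        apply mul_le_mul_of_nonneg_right _ (by positivity)
        apply count_chart hb hN0 hR (by positivity)
        intro α hα
        obtain ⟨t, ht, rfl⟩ := Finset.mem_image.mp hα
        obtain ⟨q1, q2, q3, q4⟩ := hT t ht
        exact ⟨G.v (G.xa N t), G.hv _, (G.xa_in q1).c, G.ψ_nn hω hN0 q2, q3, q4⟩
    _ = (2 * N * R + 5) ^ 2 * KK n := by unfold KK; ring

lemma proj_ge (hω : Alt ω) {N : ℕ} (hN : 8 * DD n ≤ N) {z : Z} {a b : VV n}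
    (hb : Bs (G.P z) a b) {t : Ix n} (h : G.ψ hω N t z ≠ 0) :
    3 / 4 ≤ ‖⟪a, G.v (G.xa N t)⟫_ℂ‖ ^ 2 + ‖⟪b, G.v (G.xa N t)⟫_ℂ‖ ^ 2 := by
  have hD := DD_pos (n := n)
  have hN' : (0 : ℝ) < N := by linarith
  have hN0 : 0 < N := by exact_mod_cast hN'
  have h1 := G.ψ_nn hω hN0 h
  have h2 : 4 * DD n / N ≤ 1 / 2 := by rw [div_le_iff₀ hN']; linarith
  have h3 := hb.pyth (G.v (G.xa N t))
  rw [hb.norm_sq, G.hv] at h3
  have h4 : ‖G.v (G.xa N t) - G.P z (G.v (G.xa N t))‖ ≤ 1 / 2 := h1.trans h2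
  nlinarith [norm_nonneg (G.v (G.xa N t) - G.P z (G.v (G.xa N t)))]

/-- **(6) COUNT** -/
lemma count (hω : Alt ω) {N : ℕ} (hN : 8 * DD n ≤ N) (z : Z) (T : Finset (Ix n))
    (hT : ∀ t ∈ T, t ∈ G.s N ∧ G.ψ hω N t z ≠ 0) : (T.card : ℝ) ≤ 162 * KK n * N ^ 2 := by
  classical
  have hD := DD_pos (n := n)
  have hK := KK_pos (n := n)
  have hN' : (0 : ℝ) < N := by linarith
  have hN1 : (1 : ℝ) ≤ N := by
    have : 0 < N := by exact_mod_cast hN'
    exact_mod_cast this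
  obtain ⟨a, b, hb⟩ := (G.hP z).bs
  have hsub : T ⊆ (T.filter fun t => 1 / 2 ≤ ‖⟪a, G.v (G.xa N t)⟫_ℂ‖) ∪
      (T.filter fun t => 1 / 2 ≤ ‖⟪b, G.v (G.xa N t)⟫_ℂ‖) := by
    intro t ht
    rw [Finset.mem_union, Finset.mem_filter, Finset.mem_filter]
    have h1 := G.proj_ge hω hN hb (hT t ht).2
    by_contra hc
    rw [not_or, not_and, not_and] at hc
    have c1 := not_le.mp (hc.1 ht)
    have c2 := not_le.mp (hc.2 ht)
    nlinarith [norm_nonneg (⟪a, G.v (G.xa N t)⟫_ℂ), norm_nonneg (⟪b, G.v (G.xa N t)⟫_ℂ)]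
  have hN2 : 2 * DD n ≤ N := by linarith
  have k1 := G.count_ix hω hN2 hb (R := 2) (by norm_num)
    (T.filter fun t => 1 / 2 ≤ ‖⟪a, G.v (G.xa N t)⟫_ℂ‖) (fun t ht => by
      obtain ⟨h1, h2⟩ := Finset.mem_filter.mp ht
      have := inner_le_one hb.nb (G.hv (G.xa N t))
      exact ⟨(hT t h1).1, (hT t h1).2, h2, by linarith⟩)
  have k2 := G.count_ix hω hN2 hb.swap (R := 2) (by norm_num)
    (T.filter fun t => 1 / 2 ≤ ‖⟪b, G.v (G.xa N t)⟫_ℂ‖) (fun t ht => by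
      obtain ⟨h1, h2⟩ := Finset.mem_filter.mp ht
      have := inner_le_one hb.na (G.hv (G.xa N t))
      exact ⟨(hT t h1).1, (hT t h1).2, h2, by linarith⟩)
  have k3 : (T.card : ℝ) ≤ ((T.filter fun t => 1 / 2 ≤ ‖⟪a, G.v (G.xa N t)⟫_ℂ‖).card : ℝ) +
      ((T.filter fun t => 1 / 2 ≤ ‖⟪b, G.v (G.xa N t)⟫_ℂ‖).card : ℝ) := by
    have := (Finset.card_le_card hsub).trans (Finset.card_union_le _ _)
    exact_mod_cast this
  have k4 : (2 * (N : ℝ) * 2 + 5) ^ 2 ≤ 81 * N ^ 2 := by nlinarith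
  calc (T.card : ℝ) ≤ (2 * N * 2 + 5) ^ 2 * KK n + (2 * N * 2 + 5) ^ 2 * KK n :=
        k3.trans (add_le_add k1 k2)
    _ ≤ 81 * N ^ 2 * KK n + 81 * N ^ 2 * KK n := by gcongr
    _ = 162 * KK n * N ^ 2 := by ring

/-- the constant of the local count -/
noncomputable def LL (n : ℕ) : ℝ := ((4 * DD n + 5) ^ 2 + 648 * DD n ^ 2) * KK n

/-- **(7) LOCAL COUNT** -/
lemma count_loc (hω : Alt ω) {N : ℕ} (hN : 8 * DD n ≤ N) (z : Z) {t₀ : Ix n} (ht₀ : t₀ ∈ G.s N)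
    (h₀ : G.ψ hω N t₀ z ≠ 0) {δ : ℝ} (hδ : 1 / N ≤ δ) (T : Finset (Ix n))
    (hT : ∀ t ∈ T, t ∈ G.s N ∧ G.ψ hω N t z ≠ 0 ∧
      ∀ i, |pc (G.v (G.xa N t)) i - pc (G.v (G.xa N t₀)) i| ≤ δ) :
    (T.card : ℝ) ≤ LL n * (δ * N) ^ 2 := by
  classical
  have hD := DD_pos (n := n)
  have hK := KK_pos (n := n)
  have hN' : (0 : ℝ) < N := by linarith
  have hδ0 : 0 < δ := lt_of_lt_of_le (by positivity) hδ
  have hδN : 1 ≤ δ * N := by rwa [div_le_iff₀ hN'] at hδ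
  have hN2 : 2 * DD n ≤ N := by linarith
  by_cases hs : DD n * δ ≤ 1 / 2
  · obtain ⟨a₁, b₁, hb₁⟩ := (G.hP z).bs
    have hP0 : G.P z (G.v (G.xa N t₀)) ≠ 0 := by
      intro h0
      have h1 := G.proj_ge hω hN hb₁ h₀
      rw [← hb₁.norm_sq, h0, norm_zero] at h1
      norm_num at h1
    obtain ⟨a, b, hb, hb0⟩ := hb₁.change hP0
    have k1 := G.count_ix hω hN2 hb (R := 2 * (DD n * δ)) (by positivity) T (fun t ht => by
      obtain ⟨q1, q2, q3⟩ := hT t ht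
      have r1 : ‖rm (G.v (G.xa N t₀)) (G.v (G.xa N t))‖ ≤ DD n * δ := by
        refine (rm_le_pc (G.hv _) (G.hv _) hδ0.le q3).trans ?_
        apply mul_le_mul_of_nonneg_right _ hδ0.le
        unfold DD
        nlinarith [sq_nonneg (n : ℝ)]
      have r2 : ‖⟪b, G.v (G.xa N t)⟫_ℂ‖ ≤ DD n * δ := by
        have e1 : ⟪b, G.v (G.xa N t)⟫_ℂ = ⟪b, rm (G.v (G.xa N t₀)) (G.v (G.xa N t))⟫_ℂ := by
          conv_lhs => rw [eq_rm (G.v (G.xa N t₀)) (G.v (G.xa N t))]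
          rw [inner_add_right, inner_smul_right, hb0, mul_zero, zero_add]
        rw [e1]
        have := norm_inner_le_norm (𝕜 := ℂ) b (rm (G.v (G.xa N t₀)) (G.v (G.xa N t)))
        rw [hb.nb, one_mul] at this
        exact this.trans r1
      refine ⟨q1, q2, ?_, by linarith⟩
      have h1 := G.proj_ge hω hN hb q2
      nlinarith [norm_nonneg (⟪a, G.v (G.xa N t)⟫_ℂ), norm_nonneg (⟪b, G.v (G.xa N t)⟫_ℂ)])
    refine k1.trans ?_
    have e2 : 2 * (N : ℝ) * (2 * (DD n * δ)) + 5 ≤ (4 * DD n + 5) * (δ * N) := by nlinarith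
    calc (2 * (N : ℝ) * (2 * (DD n * δ)) + 5) ^ 2 * KK n
        ≤ ((4 * DD n + 5) * (δ * N)) ^ 2 * KK n := by
          apply mul_le_mul_of_nonneg_right _ hK.le
          exact pow_le_pow_left₀ (by positivity) e2 2
      _ = ((4 * DD n + 5) ^ 2 * KK n) * (δ * N) ^ 2 := by ring
      _ ≤ LL n * (δ * N) ^ 2 := by
          apply mul_le_mul_of_nonneg_right _ (sq_nonneg _)
          unfold LL
          nlinarith [mul_pos (pow_pos hD 2) hK]
  · push Not at hs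
    have k1 := G.count hω hN z T (fun t ht => ⟨(hT t ht).1, (hT t ht).2.1⟩)
    refine k1.trans ?_
    have h1 : 1 ≤ 2 * (DD n * δ) := by linarith
    have h2 : 1 ≤ (2 * (DD n * δ)) ^ 2 := one_le_pow₀ h1
    calc 162 * KK n * N ^ 2 ≤ 162 * KK n * N ^ 2 * (2 * (DD n * δ)) ^ 2 := by
          apply le_mul_of_one_le_right (by positivity) h2
      _ = (648 * DD n ^ 2 * KK n) * (δ * N) ^ 2 := by ring
      _ ≤ LL n * (δ * N) ^ 2 := by
          apply mul_le_mul_of_nonneg_right _ (sq_nonneg _)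
          unfold LL
          have : 0 ≤ (4 * DD n + 5) ^ 2 * KK n := by positivity
          nlinarith

end Dat

end Vale.Agent.P092.H878.CC
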