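import Vale.Agent.P092.H878.CCe
import Vale.Agent.P092.H616.CH

/-! # Carnot cells, part 6: the cells of the complex symplectic quadrangle -/

set_option linter.unusedSectionVars false
set_option linter.unusedVariables false

namespace Vale.Agent.P092.H878.CC

open Matrix Vale.Agent.P092.H283.Car Vale.Agent.P092.H616.CH
open Vale.Agent.P092.H616.CG (hp)
open Vale.Agent.P092.RC (YY)
open Vale.Agent.P092.SP4

/-- a unit vector of a complex point -/
noncomputable def vC (x : YY ℂ 3) : Fin 4 → ℂ := Classical.choose (XC_on x)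

theorem vC_unit (x : YY ℂ 3) : star (vC x) ⬝ᵥ vC x = 1 := (Classical.choose_spec (XC_on x)).1

theorem vC_mem (x : YY ℂ 3) : vC x ∈ x.submodule := (Classical.choose_spec (XC_on x)).2.1

theorem XC_eq (x : YY ℂ 3) : XC x = vecMulVec (vC x) (star (vC x)) :=
  (Classical.choose_spec (XC_on x)).2.2

theorem J4_real : (J4 ℂ).map star = J4 ℂ := by
  ext i j
  fin_cases i <;> fin_cases j <;> simp [J4]

theorem J4_unit : (J4 ℂ)ᴴ * J4 ℂ = 1 := by
  have h : (J4 ℂ)ᴴ = -J4 ℂ := by
    rw [conjTranspose, J4_tr, ← J4_real]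
    ext i j
    fin_cases i <;> fin_cases j <;> simp [J4]
  rw [h, neg_mul, J4_sq, neg_neg]

/-- **the cells over the complex numbers** -/
theorem cellsC : CellsStmt vC XC PC (J4 ℂ) := by
  refine cellsStmt J4_tr J4_unit vC_unit XC_eq ?_
  intro z
  obtain ⟨u, v, h1, h2, h3, h4, h5, h6, h7⟩ := PC_on z
  exact ⟨u, v, h1, h2, h3, h4, h7⟩

/-- the projection of a line is hermitian -/
theorem PC_herm (z : LL ℂ) : (PC z)ᴴ = PC z := by
  obtain ⟨u, v, h1, h2, h3, h4, h5, h6, h7⟩ := PC_on z
  rw [h7, conjTranspose_add, conjTranspose_vecMulVec, conjTranspose_vecMulVec, star_star, star_star]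

end Vale.Agent.P092.H878.CC
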