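import Vale.Agent.P092.H283.Car6

/-! # Track C: the operator of a finite tensor in three letters, Stone-Weierstrass -/

set_option linter.unusedSectionVars false
set_option linter.unusedVariables false

namespace Vale.Agent.P092.H878.CW

open Matrix Finset
open Vale.Agent.P092.H828.P (UL)
open Vale.Agent.P092.H283.Car

section xi

variable {X Z K : Type*} [TopologicalSpace X] [CompactSpace X] [TopologicalSpace Z]
  [CompactSpace Z] [NormedAddCommGroup K] [InnerProductSpace ℂ K] [CompleteSpace K]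
  (E : C(X, ℂ) →ₗ[ℂ] (K →L[ℂ] K)) (F : C(Z, ℂ) →ₗ[ℂ] (K →L[ℂ] K))

open Classical in
/-- the operator of a finite tensor `T(x, z, x')` -/
noncomputable def Xi (T : X → Z → X → ℂ) : K →L[ℂ] K :=
  if h : ∃ (d : ℕ) (u : Fin d → C(X, ℂ)) (w : Fin d → C(Z, ℂ)) (u' : Fin d → C(X, ℂ)),
    ∀ x z x', T x z x' = ∑ r, u r x * w r z * u' r x' then
    ∑ r, E (h.choose_spec.choose r) * F (h.choose_spec.choose_spec.choose r) *
      E (h.choose_spec.choose_spec.choose_spec.choose r) else 0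

theorem Xi_rep {T : X → Z → X → ℂ} {ρ : Type*} [Fintype ρ] (u : ρ → C(X, ℂ)) (w : ρ → C(Z, ℂ))
    (u' : ρ → C(X, ℂ)) (h : ∀ x z x', T x z x' = ∑ r, u r x * w r z * u' r x') :
    Xi E F T = ∑ r, E (u r) * F (w r) * E (u' r) := by
  have hT : ∃ (d : ℕ) (u : Fin d → C(X, ℂ)) (w : Fin d → C(Z, ℂ)) (u' : Fin d → C(X, ℂ)),
    ∀ x z x', T x z x' = ∑ r, u r x * w r z * u' r x' := FT.of ρ u w u' h
  unfold Xi
  rw [dif_pos hT]
  apply op_eq3
  intro x z x'
  rw [← h]
  exact (hT.choose_spec.choose_spec.choose_spec.choose_spec x z x').symm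

variable {T T' : X → Z → X → ℂ}

theorem Xi_add (h : FT T) (h' : FT T') :
    Xi E F (fun x z x' => T x z x' + T' x z x') = Xi E F T + Xi E F T' := by
  obtain ⟨d, u, w, u', h⟩ := h
  obtain ⟨e, a, b, a', h'⟩ := h'
  rw [Xi_rep E F u w u' h, Xi_rep E F a b a' h',
    Xi_rep E F (Sum.elim u a) (Sum.elim w b) (Sum.elim u' a') (fun x z x' => by
      rw [Fintype.sum_sum_type]
      simp only [Sum.elim_inl, Sum.elim_inr]
      rw [h, h']), Fintype.sum_sum_type]
  simp only [Sum.elim_inl, Sum.elim_inr]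

theorem Xi_smul (h : FT T) (c : ℂ) :
    Xi E F (fun x z x' => c * T x z x') = c • Xi E F T := by
  obtain ⟨d, u, w, u', h⟩ := h
  rw [Xi_rep E F u w u' h, Xi_rep E F (fun r => c • u r) w u' (fun x z x' => by
      rw [h, Finset.mul_sum]
      refine Finset.sum_congr rfl fun r _ => ?_
      rw [ContinuousMap.smul_apply, smul_eq_mul]
      ring), Finset.smul_sum]
  refine Finset.sum_congr rfl fun r _ => ?_
  rw [map_smul, smul_mul_assoc, smul_mul_assoc]

theorem ft_smul (h : FT T) (c : ℂ) : FT (fun x z x' => c * T x z x') := by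
  obtain ⟨d, u, w, u', h⟩ := h
  refine ⟨d, fun r => c • u r, w, u', fun x z x' => ?_⟩
  change c * T x z x' = _
  rw [h, Finset.mul_sum]
  refine Finset.sum_congr rfl fun r _ => ?_
  rw [ContinuousMap.smul_apply, smul_eq_mul]
  ring

theorem ft_sub (h : FT T) (h' : FT T') : FT (fun x z x' => T x z x' - T' x z x') :=
  (FT.add h (ft_smul h' (-1))).congr fun x z x' => by ring

theorem Xi_congr (h : ∀ x z x', T x z x' = T' x z x') : Xi E F T = Xi E F T' := by
  have : T = T' := by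
    funext x z x'
    exact h x z x'
  rw [this]

theorem Xi_sub (h : FT T) (h' : FT T') :
    Xi E F (fun x z x' => T x z x' - T' x z x') = Xi E F T - Xi E F T' := by
  have h1 := Xi_add E F h (ft_smul h' (-1))
  rw [Xi_smul E F h' (-1), neg_one_smul, ← sub_eq_add_neg] at h1
  rw [← h1]
  exact Xi_congr E F fun x z x' => by ring

theorem Xi_zero : Xi E F (fun _ _ _ => 0) = 0 := by
  rw [Xi_rep E F (Fin.elim0 : Fin 0 → C(X, ℂ)) Fin.elim0 Fin.elim0 (fun x z x' => by simp)]
  simp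

theorem Xi_sum {τ : Type*} (t : Finset τ) {G : τ → X → Z → X → ℂ} (h : ∀ i ∈ t, FT (G i)) :
    Xi E F (fun x z x' => ∑ i ∈ t, G i x z x') = ∑ i ∈ t, Xi E F (G i) := by
  classical
  induction t using Finset.induction_on with
  | empty => simpa using Xi_zero E F
  | insert a t ha ih =>
    rw [Finset.sum_insert ha, ← ih fun i hi => h i (Finset.mem_insert_of_mem hi),
      ← Xi_add E F (h a (Finset.mem_insert_self a t))
        (FT.sum t fun i hi => h i (Finset.mem_insert_of_mem hi))]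
    exact Xi_congr E F fun x z x' => Finset.sum_insert ha

/-- functions of `x` and `x'` only -/
theorem Xi_two {ρ : Type*} [Fintype ρ] (a c : ρ → C(X, ℂ))
    (h : ∀ x z x', T x z x' = ∑ r, a r x * c r x') (hF1 : F 1 = 1) :
    Xi E F T = ∑ r, E (a r) * E (c r) := by
  rw [Xi_rep E F a (fun _ => 1) c (fun x z x' => by
    rw [h]
    exact Finset.sum_congr rfl fun r _ => by simp)]
  refine Finset.sum_congr rfl fun r _ => ?_
  rw [hF1, mul_one]

/-- multiplication of a finite tensor by three functions -/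
theorem ft_mul3 (h : FT T) (u : C(X, ℂ)) (g : C(Z, ℂ)) (u' : C(X, ℂ)) :
    FT (fun x z x' => u x * g z * u' x' * T x z x') :=
  FT.mul (FT.one3 u g u') h

/-- the bilinear map of a finite tensor -/
noncomputable def bf (S : X → Z → X → ℂ) (hS : FT S) (g : C(Z, ℂ)) :
    C(X, ℂ) →ₗ[ℂ] C(X, ℂ) →ₗ[ℂ] (K →L[ℂ] K) :=
  LinearMap.mk₂ ℂ (fun u u' => Xi E F (fun x z x' => u x * g z * u' x' * S x z x'))
    (fun f f' u' => by
      rw [← Xi_add E F (ft_mul3 hS _ _ _) (ft_mul3 hS _ _ _)]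
      exact Xi_congr E F fun x z x' => by rw [ContinuousMap.add_apply]; ring)
    (fun c f u' => by
      rw [← Xi_smul E F (ft_mul3 hS _ _ _)]
      exact Xi_congr E F fun x z x' => by rw [ContinuousMap.smul_apply, smul_eq_mul]; ring)
    (fun u f f' => by
      rw [← Xi_add E F (ft_mul3 hS _ _ _) (ft_mul3 hS _ _ _)]
      exact Xi_congr E F fun x z x' => by rw [ContinuousMap.add_apply]; ring)
    (fun c u f => by
      rw [← Xi_smul E F (ft_mul3 hS _ _ _)]
      exact Xi_congr E F fun x z x' => by rw [ContinuousMap.smul_apply, smul_eq_mul]; ring)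

variable {E F}

theorem bf_apply {S : X → Z → X → ℂ} (hS : FT S) (g : C(Z, ℂ)) (u u' : C(X, ℂ)) :
    bf E F S hS g u u' = Xi E F (fun x z x' => u x * g z * u' x' * S x z x') := rfl

theorem bf_rep {S : X → Z → X → ℂ} {hS : FT S} {d : ℕ} {a : Fin d → C(X, ℂ)}
    {b : Fin d → C(Z, ℂ)} {c : Fin d → C(X, ℂ)}
    (h : ∀ x z x', S x z x' = ∑ r, a r x * b r z * c r x') (g : C(Z, ℂ)) (u u' : C(X, ℂ)) :
    bf E F S hS g u u' = ∑ r, E (u * a r) * F (g * b r) * E (u' * c r) := by
  rw [bf_apply]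
  refine Xi_rep E F _ _ _ fun x z x' => ?_
  rw [h, Finset.mul_sum]
  refine Finset.sum_congr rfl fun r _ => ?_
  simp only [ContinuousMap.mul_apply]
  ring

theorem bf_bound {p q : ℝ} (hE : UL E p) (hF : UL F q) {S : X → Z → X → ℂ} (hS : FT S)
    (g : C(Z, ℂ)) : ∃ M : ℝ, 0 ≤ M ∧ ∀ u u', ‖bf E F S hS g u u'‖ ≤ M * ‖u‖ * ‖u'‖ := by
  obtain ⟨d, a, b, c, h⟩ := id hS
  refine ⟨∑ r : Fin d, (Real.sqrt |p| * ‖a r‖) * (Real.sqrt |q| * ‖g * b r‖) *
    (Real.sqrt |p| * ‖c r‖), by positivity, fun u u' => ?_⟩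
  rw [bf_rep h, Finset.sum_mul, Finset.sum_mul]
  refine (norm_sum_le _ _).trans (Finset.sum_le_sum fun r _ => ?_)
  have h1 : ‖E (u * a r)‖ ≤ Real.sqrt |p| * (‖u‖ * ‖a r‖) :=
    (hE.norm_le _).trans (mul_le_mul_of_nonneg_left (norm_mul_le _ _) (Real.sqrt_nonneg _))
  have h2 : ‖E (u' * c r)‖ ≤ Real.sqrt |p| * (‖u'‖ * ‖c r‖) :=
    (hE.norm_le _).trans (mul_le_mul_of_nonneg_left (norm_mul_le _ _) (Real.sqrt_nonneg _))
  have h3 : ‖F (g * b r)‖ ≤ Real.sqrt |q| * ‖g * b r‖ := hF.norm_le _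
  calc ‖E (u * a r) * F (g * b r) * E (u' * c r)‖
      ≤ ‖E (u * a r)‖ * ‖F (g * b r)‖ * ‖E (u' * c r)‖ :=
        (norm_mul_le _ _).trans (mul_le_mul_of_nonneg_right (norm_mul_le _ _) (norm_nonneg _))
    _ ≤ (Real.sqrt |p| * (‖u‖ * ‖a r‖)) * (Real.sqrt |q| * ‖g * b r‖) *
        (Real.sqrt |p| * (‖u'‖ * ‖c r‖)) := by gcongr
    _ = _ := by ring

theorem bf_cont {q : ℝ} (hF : UL F q) {S : X → Z → X → ℂ} (hS : FT S)
    (u u' : C(X, ℂ)) : Continuous fun g : C(Z, ℂ) => bf E F S hS g u u' := by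
  obtain ⟨d, a, b, c, h⟩ := id hS
  have e : (fun g : C(Z, ℂ) => bf E F S hS g u u') =
      fun g => ∑ r, E (u * a r) * F (g * b r) * E (u' * c r) := by
    funext g
    exact bf_rep h g u u'
  rw [e]
  refine continuous_finsetSum _ fun r _ => ?_
  exact (continuous_const.mul (hF.continuous.comp (continuous_id.mul continuous_const))).mul
    continuous_const

end xi

section sw

variable {Z : Type*} [TopologicalSpace Z] [CompactSpace Z] {n : ℕ}
  {P : C(Z, Matrix (Fin n) (Fin n) ℂ)}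

/-- the functions which map a subspace to itself form an algebra -/
def stab (W : Submodule ℂ C(Z, ℂ)) : Subalgebra ℂ C(Z, ℂ) where
  carrier := {h | ∀ w ∈ W, w * h ∈ W}
  mul_mem' := fun {a b} ha hb w hw => by
    rw [← mul_assoc]
    exact hb _ (ha w hw)
  add_mem' := fun {a b} ha hb w hw => by
    rw [mul_add]
    exact W.add_mem (ha w hw) (hb w hw)
  algebraMap_mem' := fun r w hw => by
    rw [mul_comm, ← Algebra.smul_def]
    exact W.smul_mem r hw

/-- **Stone-Weierstrass for a closed subspace** which contains `1` and is stable under the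
entries of an injective family of hermitian matrices -/
theorem sw_all (hPh : ∀ z, (P z)ᴴ = P z) (hPi : Function.Injective P)
    (W : Submodule ℂ C(Z, ℂ)) (hc : IsClosed (W : Set C(Z, ℂ))) (h1 : (1 : C(Z, ℂ)) ∈ W)
    (hm : ∀ g ∈ W, ∀ i j, g * en P i j ∈ W) (g : C(Z, ℂ)) : g ∈ W := by
  let s : Set C(Z, ℂ) := Set.range fun ij : Fin n × Fin n => en P ij.1 ij.2
  have hstar : ∀ i j, star (en P i j) = en P j i := by
    intro i j
    ext z
    rw [ContinuousMap.star_apply, en_apply, en_apply]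
    conv_rhs => rw [← hPh z]
    rfl
  have hs : s ∪ star s ⊆ stab W := by
    rintro h (⟨ij, rfl⟩ | hh)
    · intro w hw
      exact hm w hw _ _
    · obtain ⟨ij, hij⟩ := hh
      have : h = en P ij.2 ij.1 := by
        rw [← hstar, ← star_star h]
        exact congrArg star hij.symm
      rw [this]
      intro w hw
      exact hm w hw _ _
  let A : StarSubalgebra ℂ C(Z, ℂ) := StarAlgebra.adjoin ℂ s
  have hA : ∀ h ∈ A, h ∈ W := by
    intro h hh
    have h2 : h ∈ Algebra.adjoin ℂ (s ∪ star s) := by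
      rw [← StarAlgebra.adjoin_toSubalgebra]
      exact hh
    have h3 : h ∈ stab W := Algebra.adjoin_le hs h2
    have h4 := h3 1 h1
    rwa [one_mul] at h4
  have hsep : A.SeparatesPoints := by
    intro x y hxy
    have : P x ≠ P y := fun h => hxy (hPi h)
    obtain ⟨i, j, hij⟩ : ∃ i j, P x i j ≠ P y i j := by
      by_contra hcon
      push Not at hcon
      exact this (by ext i j; exact hcon i j)
    exact ⟨en P i j, ⟨en P i j, StarAlgebra.subset_adjoin ℂ s ⟨(i, j), rfl⟩, rfl⟩, hij⟩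
  have htop := ContinuousMap.starSubalgebra_topologicalClosure_eq_top_of_separatesPoints A hsep
  have hg : g ∈ A.topologicalClosure := by rw [htop]; trivial
  have hcl : g ∈ closure (A : Set C(Z, ℂ)) := by
    rw [← StarSubalgebra.topologicalClosure_coe]
    exact hg
  exact hc.closure_subset_iff.mpr (fun h hh => hA h hh) hcl

end sw

end Vale.Agent.P092.H878.CW
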