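import Vale.Agent.P092.H878.CWa
import Vale.Agent.P092.H283.Car7
import Vale.Agent.P092.H378.C2

/-! # Track C: pairs of cells which are far from each other give zero -/

set_option linter.unusedSectionVars false
set_option linter.unusedVariables false

namespace Vale.Agent.P092.H878.CW

open Matrix Finset
open Vale.Agent.P092.H828.P (UL)
open Vale.Agent.P092.H283.Car
open Vale.Agent.P092.H378.C (PtR LgR Sy om2)

variable {n : ℕ} {X Z : Type*} [TopologicalSpace X] [CompactSpace X] [TopologicalSpace Z]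
  [CompactSpace Z]
  {v : X → Fin n → ℂ} {Q : C(X, Matrix (Fin n) (Fin n) ℂ)}
  {P : C(Z, Matrix (Fin n) (Fin n) ℂ)} {J : Matrix (Fin n) (Fin n) ℂ} {C : ℝ}
  {K : Type*} [NormedAddCommGroup K] [InnerProductSpace ℂ K] [CompleteSpace K]
  {E : C(X, ℂ) →ₗ[ℂ] (K →L[ℂ] K)} {F : C(Z, ℂ) →ₗ[ℂ] (K →L[ℂ] K)} {p q : ℝ}

/-- Lemma O for one letter of points, in general letters -/
def O2G (Q : C(X, Matrix (Fin n) (Fin n) ℂ)) (J : Matrix (Fin n) (Fin n) ℂ)
    (E : C(X, ℂ) →ₗ[ℂ] (K →L[ℂ] K)) : Prop :=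
  ∀ (r : ℕ) (u v : Fin r → C(X, ℂ)) (C δ : ℝ), 0 < δ →
    (∀ x y, ‖∑ i, u i x * v i y‖ ≤ C * ∑ a, ∑ b, ‖((Q x)ᵀ * J * Q y) a b‖ ^ 2) →
    (∀ x y, (∀ a b, ‖Q x a b - Q y a b‖ < δ) → ∑ i, u i x * v i y = 0) →
    ∑ i, E (u i) * E (v i) = 0

/-- multiplication does not increase the support -/
theorem ts_mul {Y : Type*} [TopologicalSpace Y] (u f : C(Y, ℂ)) :
    tsupport (u * f : C(Y, ℂ)) ⊆ tsupport u := by
  refine closure_mono ?_
  intro x hx h0
  apply hx
  simp [h0]

/-- disjoint supports are separated -/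
theorem sep (hQi : Function.Injective Q) (u u' : C(X, ℂ))
    (hd : Disjoint (tsupport u) (tsupport u')) :
    ∃ δ : ℝ, 0 < δ ∧ ∀ x y, (∀ a b, ‖Q x a b - Q y a b‖ < δ) → u x * u' y = 0 := by
  let f : X × X → ℝ := fun w => ∑ a, ∑ b, ‖Q w.1 a b - Q w.2 a b‖
  have hf : Continuous f := by
    refine continuous_finsetSum _ fun a _ => continuous_finsetSum _ fun b _ => ?_
    exact (((en Q a b).continuous.comp continuous_fst).sub
      ((en Q a b).continuous.comp continuous_snd)).norm
  rcases (tsupport u ×ˢ tsupport u').eq_empty_or_nonempty with h0 | h0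
  · refine ⟨1, one_pos, fun x y _ => ?_⟩
    by_contra hne
    have : (x, y) ∈ tsupport u ×ˢ tsupport u' :=
      ⟨subset_tsupport _ (left_ne_zero_of_mul hne), subset_tsupport _ (right_ne_zero_of_mul hne)⟩
    rw [h0] at this
    exact this.elim
  · have hK : IsCompact (tsupport u ×ˢ tsupport u') :=
      (isClosed_tsupport _).isCompact.prod (isClosed_tsupport _).isCompact
    obtain ⟨y, hy, hmin⟩ := hK.exists_isMinOn h0 hf.continuousOn
    have hpos : 0 < f y := by
      by_contra hle
      have h1 : f y = 0 := le_antisymm (not_lt.mp hle)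
        (Finset.sum_nonneg fun _ _ => Finset.sum_nonneg fun _ _ => norm_nonneg _)
      have h2 : Q y.1 = Q y.2 := by
        ext a b
        have h3 := (Finset.sum_eq_zero_iff_of_nonneg (fun a _ =>
          Finset.sum_nonneg fun b _ => norm_nonneg (Q y.1 a b - Q y.2 a b))).mp h1 a
          (Finset.mem_univ a)
        have h4 := (Finset.sum_eq_zero_iff_of_nonneg (fun b _ =>
          norm_nonneg (Q y.1 a b - Q y.2 a b))).mp h3 b (Finset.mem_univ b)
        exact sub_eq_zero.mp (norm_eq_zero.mp h4)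
      have h5 : y.1 = y.2 := hQi h2
      have h6 : y.2 ∈ tsupport u := h5 ▸ hy.1
      exact Set.disjoint_left.mp hd h6 hy.2
    refine ⟨f y / (n * n + 1), by positivity, fun x x' hlt => ?_⟩
    by_contra hne
    have hmem : (x, x') ∈ tsupport u ×ˢ tsupport u' :=
      ⟨subset_tsupport _ (left_ne_zero_of_mul hne), subset_tsupport _ (right_ne_zero_of_mul hne)⟩
    have h3 : f y ≤ f (x, x') := (isMinOn_iff.mp hmin) (x, x') hmem
    have h4 : f (x, x') ≤ (n * n) * (f y / (n * n + 1)) := by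
      calc f (x, x') ≤ ∑ _a : Fin n, ∑ _b : Fin n, f y / (n * n + 1) :=
            Finset.sum_le_sum fun a _ => Finset.sum_le_sum fun b _ => (hlt a b).le
        _ = _ := by
            simp only [Finset.sum_const, Finset.card_univ, Fintype.card_fin, nsmul_eq_mul]
            ring
    have h5 : ((n : ℝ) * n) * (f y / (n * n + 1)) < f y := by
      rw [mul_div_assoc', div_lt_iff₀ (by positivity)]
      nlinarith
    linarith

open scoped ComplexOrder in
/-- two points with trace of the product equal to one are equal -/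
theorem tr_ne (hPt : ∀ x, PtR J (Q x)) (hQh : ∀ x, (Q x)ᴴ = Q x) (hQi : Function.Injective Q)
    (x x' : X) (h : x ≠ x') :
    ∑ i : Fin n × Fin n, en Q i.1 i.2 x * en Q i.2 i.1 x' ≠ 1 := by
  intro h1
  apply h
  apply hQi
  have h2 : (Q x * Q x').trace = 1 := by
    rw [← h1, Fintype.sum_prod_type]
    rfl
  have h3 : ((Q x - Q x')ᴴ * (Q x - Q x')).trace = 0 := by
    rw [conjTranspose_sub, hQh, hQh, sub_mul, mul_sub, mul_sub, (hPt x).idem, (hPt x').idem,
      trace_sub, trace_sub, trace_sub, trace_mul_comm (Q x') (Q x), h2, (hPt x).tr, (hPt x').tr]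
    ring
  exact sub_eq_zero.mp (trace_conjTranspose_mul_self_eq_zero_iff.mp h3)

/-- the square of the symplectic form as a sum of squares -/
theorem om2_norm (hJr : J.map star = J) (hPt : ∀ x, PtR J (Q x)) (hQh : ∀ x, (Q x)ᴴ = Q x)
    (x y : X) : ‖om2 J (Q x) (Q y)‖ ≤ ∑ a, ∑ b, ‖((Q x)ᵀ * J * Q y) a b‖ ^ 2 := by
  have e1 : om2 J (Q x) (Q y) = (((Q x)ᵀ * J * Q y) * ((Q x)ᵀ * J * Q y)ᴴ).trace := by
    have hJh : Jᴴ = Jᵀ := by
      ext i j
      rw [conjTranspose_apply, transpose_apply]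
      exact congrFun (congrFun hJr j) i
    have hxt : ((Q x)ᵀ)ᴴ = (Q x)ᵀ := by
      ext i j
      exact congrFun (congrFun (hQh x) j) i
    have hidt : (Q x)ᵀ * (Q x)ᵀ = (Q x)ᵀ := by
      rw [← transpose_mul, (hPt x).idem]
    rw [conjTranspose_mul, conjTranspose_mul, hxt, hQh, hJh]
    calc om2 J (Q x) (Q y) = ((Q x)ᵀ * J * Q y * Jᵀ).trace := rfl
      _ = ((Q x)ᵀ * (Q x)ᵀ * J * (Q y * Q y) * Jᵀ).trace := by rw [hidt, (hPt y).idem]
      _ = ((Q x)ᵀ * ((Q x)ᵀ * J * (Q y * Q y) * Jᵀ)).trace := by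
          simp only [Matrix.mul_assoc]
      _ = (((Q x)ᵀ * J * (Q y * Q y) * Jᵀ) * (Q x)ᵀ).trace := trace_mul_comm _ _
      _ = _ := by simp only [Matrix.mul_assoc]
  rw [e1, trace]
  refine (norm_sum_le _ _).trans (Finset.sum_le_sum fun a _ => ?_)
  rw [diag_apply, mul_apply]
  refine (norm_sum_le _ _).trans (Finset.sum_le_sum fun b _ => ?_)
  rw [conjTranspose_apply, norm_mul, norm_star, sq]

/-- the square of the symplectic form as a finite tensor -/
theorem om2_rep (Q : C(X, Matrix (Fin n) (Fin n) ℂ)) (J : Matrix (Fin n) (Fin n) ℂ) :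
    ∃ (d : ℕ) (a c : Fin d → C(X, ℂ)), ∀ x y, ∑ r, a r x * c r y = om2 J (Q x) (Q y) := by
  let w : Fin n × Fin n → C(X, ℂ) := fun i =>
    ⟨fun y => (J * Q y * Jᵀ) i.2 i.1, by
      have h : Continuous fun y => J * Q y * Jᵀ :=
        (continuous_const.matrix_mul Q.continuous).matrix_mul continuous_const
      exact (continuous_apply i.1).comp ((continuous_apply i.2).comp h)⟩
  let e := (Fintype.equivFin (Fin n × Fin n)).symm
  refine ⟨Fintype.card (Fin n × Fin n), fun r => en Q (e r).2 (e r).1, fun r => w (e r),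
    fun x y => ?_⟩
  rw [Equiv.sum_comp e (fun i => en Q i.2 i.1 x * w i y), Fintype.sum_prod_type]
  have : om2 J (Q x) (Q y) = ((Q x)ᵀ * (J * Q y * Jᵀ)).trace := by
    rw [om2]
    simp only [Matrix.mul_assoc]
  rw [this, trace]
  refine Finset.sum_congr rfl fun i _ => ?_
  rw [diag_apply, mul_apply]
  rfl

/-- Lemma O on functions with disjoint supports -/
theorem om_zero (hJr : J.map star = J) (hPt : ∀ x, PtR J (Q x)) (hQh : ∀ x, (Q x)ᴴ = Q x)
    (hQi : Function.Injective Q) (hO : O2G Q J E) (hF1 : F 1 = 1) (u u' : C(X, ℂ))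
    (hd : Disjoint (tsupport u) (tsupport u')) :
    Xi E F (fun x (_ : Z) x' => u x * u' x' * (2 * om2 J (Q x) (Q x'))) = 0 := by
  obtain ⟨d, a, c, h⟩ := om2_rep Q J
  rw [Xi_two E F (fun r => (2 : ℂ) • (u * a r)) (fun r => u' * c r) (fun x z x' => by
    rw [← h x x', Finset.mul_sum, Finset.mul_sum]
    refine Finset.sum_congr rfl fun r _ => ?_
    simp only [ContinuousMap.mul_apply, ContinuousMap.smul_apply, smul_eq_mul]
    ring) hF1]
  obtain ⟨δ, hδ, hsep⟩ := sep hQi u u' hd
  have key : ∀ x y, ∑ r, ((2 : ℂ) • (u * a r)) x * (u' * c r) y =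
      2 * (u x * u' y) * om2 J (Q x) (Q y) := by
    intro x y
    rw [← h x y, Finset.mul_sum]
    refine Finset.sum_congr rfl fun r _ => ?_
    simp only [ContinuousMap.mul_apply, ContinuousMap.smul_apply, smul_eq_mul]
    ring
  refine hO d _ _ (2 * (‖u‖ * ‖u'‖)) δ hδ (fun x y => ?_) (fun x y hxy => ?_)
  · rw [key, norm_mul, norm_mul, norm_mul, Complex.norm_ofNat]
    have h1 := u.norm_coe_le_norm x
    have h2 := u'.norm_coe_le_norm y
    have h3 := om2_norm hJr hPt hQh x y
    gcongr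
  · rw [key, hsep x y hxy, mul_zero, zero_mul]

/-- the killed ideal is killed -/
theorem Xi_kill (hp : 0 ≤ p) (hq : 0 ≤ q) (hE : UL E p) (hF : UL F q) (hC : 0 ≤ C)
    (hcell : ∃ N₀ : ℕ, ∀ N : ℕ, N₀ ≤ N → Nonempty (CD v Q P J C N))
    (hI : ∀ (f : C(X, ℂ)) (g : C(Z, ℂ)),
      (∀ x ∈ tsupport f, ∀ z ∈ tsupport g, P z * Q x ≠ Q x) → E f * F g = 0)
    {G : X → Z → X → ℂ} (hG : KI v Q P J C G) (hT : FT G) : Xi E F G = 0 := by
  obtain ⟨d, u, w, u', h⟩ := hT
  rw [Xi_rep E F u w u' h]
  exact KI.kill hp hp hq hE hE hF hC hcell hI hI hG u w u' fun x z x' => (h x z x').symm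

theorem ft_trQ : FT (fun x (_ : Z) x' => (Q x * Q x').trace) := by
  refine FT.of (Fin n × Fin n) (fun i => en Q i.1 i.2) (fun _ => 1) (fun i => en Q i.2 i.1)
    fun x z x' => ?_
  rw [Fintype.sum_prod_type, trace]
  refine Finset.sum_congr rfl fun i _ => ?_
  rw [diag_apply, mul_apply]
  exact Finset.sum_congr rfl fun j _ => by simp

/-- **the far part**, in general letters -/
theorem far_gen (hp : 0 ≤ p) (hq : 0 ≤ q) (hE : UL E p) (hF : UL F q) (hF1 : F 1 = 1)
    (hC : 0 ≤ C)
    (hcell : ∃ N₀ : ℕ, ∀ N : ℕ, N₀ ≤ N → Nonempty (CD v Q P J C N))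
    (hI : ∀ (f : C(X, ℂ)) (g : C(Z, ℂ)),
      (∀ x ∈ tsupport f, ∀ z ∈ tsupport g, P z * Q x ≠ Q x) → E f * F g = 0)
    (hJr : J.map star = J) (hPt : ∀ x, PtR J (Q x)) (hQh : ∀ x, (Q x)ᴴ = Q x)
    (hPh : ∀ z, (P z)ᴴ = P z) (hQi : Function.Injective Q) (hPi : Function.Injective P)
    (hO : O2G Q J E) {S : X → Z → X → ℂ} (hS : FT S)
    (hmain : KI v Q P J C (fun x z x' =>
      2 * om2 J (Q x) (Q x') - (1 - (Q x * Q x').trace) * S x z x'))
    (hqk : ∀ i j, KI v Q P J C (fun x z x' => ((1 - (Q x * Q x').trace) * P z i j -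
      (Q x + Q x' - Q x * Q x' - Q x' * Q x) i j) * S x z x'))
    (g : C(Z, ℂ)) (u u' : C(X, ℂ)) (hd : Disjoint (tsupport u) (tsupport u')) :
    bf E F S hS g u u' = 0 := by
  -- the subspace
  let W : Submodule ℂ C(Z, ℂ) :=
    { carrier := {g | ∀ u u' : C(X, ℂ), Disjoint (tsupport u) (tsupport u') →
        bf E F S hS g u u' = 0}
      add_mem' := by
        intro g g' hg hg' u u' hd
        have h1 := hg u u' hd
        have h2 := hg' u u' hd
        rw [bf_apply] at h1 h2 ⊢
        have h3 := Xi_add E F (ft_mul3 hS u g u') (ft_mul3 hS u g' u')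
        rw [h1, h2, add_zero] at h3
        rw [← h3]
        exact Xi_congr E F fun x z x' => by rw [ContinuousMap.add_apply]; ring
      zero_mem' := by
        intro u u' hd
        rw [bf_apply, ← Xi_zero E F]
        exact Xi_congr E F fun x z x' => by
          rw [ContinuousMap.zero_apply, mul_zero, zero_mul, zero_mul]
      smul_mem' := by
        intro c g hg u u' hd
        have h1 := hg u u' hd
        rw [bf_apply] at h1 ⊢
        have h3 := Xi_smul E F (ft_mul3 hS u g u') c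
        rw [h1, smul_zero] at h3
        rw [← h3]
        exact Xi_congr E F fun x z x' => by
          rw [ContinuousMap.smul_apply, smul_eq_mul]; ring }
  have hWc : IsClosed (W : Set C(Z, ℂ)) := by
    have e : (W : Set C(Z, ℂ)) = ⋂ (u : C(X, ℂ)) (u' : C(X, ℂ))
        (_ : Disjoint (tsupport u) (tsupport u')), {g | bf E F S hS g u u' = 0} := by
      ext g
      simp only [Set.mem_iInter]
      rfl
    rw [e]
    refine isClosed_iInter fun u => isClosed_iInter fun u' => isClosed_iInter fun _ => ?_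
    exact isClosed_eq (bf_cont hF hS u u') continuous_const
  have htr := ft_trQ (Q := Q) (Z := Z)
  -- division
  have hdiv : ∀ g : C(Z, ℂ), (∀ u u' : C(X, ℂ), Disjoint (tsupport u) (tsupport u') →
      Xi E F (fun x z x' => u x * g z * u' x' * ((1 - (Q x * Q x').trace) * S x z x')) = 0) →
      g ∈ W := by
    intro g hg u u' hd
    obtain ⟨M, hM, hB⟩ := bf_bound hE hF hS g
    refine div (τ := Fin n × Fin n) (fun i => en Q i.1 i.2) (fun i => en Q i.2 i.1)
      (tr_ne hPt hQh hQi) (bf E F S hS g) hM hB (fun u u' hd => ?_) u u' hd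
    have h1 := hg u u' hd
    have h2 : Xi E F (fun x z x' => ∑ i : Fin n × Fin n,
        (u * en Q i.1 i.2) x * g z * (u' * en Q i.2 i.1) x' * S x z x') =
        ∑ i : Fin n × Fin n, bf E F S hS g (u * en Q i.1 i.2) (u' * en Q i.2 i.1) :=
      Xi_sum E F Finset.univ fun i _ => ft_mul3 hS _ _ _
    have h3 : FT (fun x z x' => ∑ i : Fin n × Fin n,
        (u * en Q i.1 i.2) x * g z * (u' * en Q i.2 i.1) x' * S x z x') :=
      FT.sum Finset.univ fun i _ => ft_mul3 hS _ _ _
    have h4 := Xi_sub E F (ft_mul3 hS u g u') h3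
    rw [h2] at h4
    rw [← sub_eq_zero, bf_apply, ← h4, ← h1]
    refine Xi_congr E F fun x z x' => ?_
    have h5 : (Q x * Q x').trace = ∑ i : Fin n × Fin n, Q x i.1 i.2 * Q x' i.2 i.1 := by
      rw [Fintype.sum_prod_type]
      rfl
    have h6 : ∑ i : Fin n × Fin n,
        (u * en Q i.1 i.2) x * g z * (u' * en Q i.2 i.1) x' * S x z x' =
        u x * g z * u' x' * ((Q x * Q x').trace * S x z x') := by
      rw [h5, Finset.sum_mul, Finset.mul_sum]
      refine Finset.sum_congr rfl fun i _ => ?_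
      simp only [ContinuousMap.mul_apply, en_apply]
      ring
    rw [h6]
    ring
  -- the function one
  have hW1 : (1 : C(Z, ℂ)) ∈ W := by
    apply hdiv
    intro u u' hd
    have h1 := om_zero (Z := Z) (F := F) hJr hPt hQh hQi hO hF1 u u' hd
    have hom : FT (fun x (_ : Z) x' => 2 * om2 J (Q x) (Q x')) := by
      obtain ⟨d, a, c, h⟩ := om2_rep Q J
      refine ft_smul (T := fun x (_ : Z) x' => om2 J (Q x) (Q x'))
        ⟨d, a, fun _ => 1, c, fun x z x' => ?_⟩ 2
      change om2 J (Q x) (Q x') = _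
      rw [← h]
      exact Finset.sum_congr rfl fun r _ => by simp
    have hone : FT (fun x (_ : Z) x' => 1 - (Q x * Q x').trace) :=
      ft_sub (T := fun _ _ _ => 1) ((FT.fx (1 : C(X, ℂ))).congr fun x z x' => rfl) htr
    have h2 : KI v Q P J C (fun x z x' => u x * (1 : C(Z, ℂ)) z * u' x' *
        (2 * om2 J (Q x) (Q x') - (1 - (Q x * Q x').trace) * S x z x')) := hmain.mulx u 1 u'
    have h3 : FT (fun x z x' =>
        2 * om2 J (Q x) (Q x') - (1 - (Q x * Q x').trace) * S x z x') :=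
      ft_sub hom (FT.mul hone hS)
    have h4 := Xi_kill hp hq hE hF hC hcell hI h2 (ft_mul3 h3 u 1 u')
    have h5 := Xi_sub E F (ft_mul3 hom u 1 u') (ft_mul3 (FT.mul hone hS) u 1 u')
    have h6 : Xi E F (fun x z x' => u x * (1 : C(Z, ℂ)) z * u' x' *
        (2 * om2 J (Q x) (Q x'))) = 0 := by
      rw [← h1]
      exact Xi_congr E F fun x z x' => by rw [ContinuousMap.one_apply, mul_one]
    rw [h6, zero_sub] at h5
    rw [← neg_eq_zero, ← h5, ← h4]
    exact Xi_congr E F fun x z x' => by ring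
  -- multiplication by the entries
  have hWm : ∀ g ∈ W, ∀ i j, g * en P i j ∈ W := by
    intro g hg i j
    apply hdiv
    intro u u' hd
    have k1 : KI v Q P J C (fun x z x' => u x * g z * u' x' *
      (((1 - (Q x * Q x').trace) * P z i j -
      (Q x + Q x' - Q x * Q x' - Q x' * Q x) i j) * S x z x')) := (hqk i j).mulx u g u'
    have hone : FT (fun x (_ : Z) x' => 1 - (Q x * Q x').trace) :=
      ft_sub (T := fun _ _ _ => 1) ((FT.fx (1 : C(X, ℂ))).congr fun x z x' => rfl) htr
    have f1 : FT (fun x z x' => (1 - (Q x * Q x').trace) * S x z x') := FT.mul hone hS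
    have f2 := ft_mul3 f1 u (g * en P i j) u'
    -- the five terms
    have g1 := hg (u * en Q i j) u' (hd.mono_left (ts_mul _ _))
    have g2 := hg u (u' * en Q i j) (hd.mono_right (ts_mul _ _))
    have g3 : ∀ k, bf E F S hS g (u * en Q i k) (u' * en Q k j) = 0 := fun k =>
      hg _ _ (hd.mono (ts_mul _ _) (ts_mul _ _))
    have g4 : ∀ k, bf E F S hS g (u * en Q k j) (u' * en Q i k) = 0 := fun k =>
      hg _ _ (hd.mono (ts_mul _ _) (ts_mul _ _))
    have e1 := Xi_add E F (ft_mul3 hS (u * en Q i j) g u') (ft_mul3 hS u g (u' * en Q i j))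
    have e2 := Xi_sum E F (Finset.univ : Finset (Fin n))
      (fun k _ => ft_mul3 hS (u * en Q i k) g (u' * en Q k j))
    have e3 := Xi_sum E F (Finset.univ : Finset (Fin n))
      (fun k _ => ft_mul3 hS (u * en Q k j) g (u' * en Q i k))
    have t1 := FT.add (ft_mul3 hS (u * en Q i j) g u') (ft_mul3 hS u g (u' * en Q i j))
    have t2 := FT.sum (Finset.univ : Finset (Fin n))
      (fun k _ => ft_mul3 hS (u * en Q i k) g (u' * en Q k j))
    have t3 := FT.sum (Finset.univ : Finset (Fin n))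
      (fun k _ => ft_mul3 hS (u * en Q k j) g (u' * en Q i k))
    have e4 := Xi_sub E F (ft_sub t1 t2) t3
    rw [Xi_sub E F t1 t2, e1, e2, e3] at e4
    rw [bf_apply] at g1 g2
    have z2 : ∑ k, Xi E F (fun x z x' =>
        (u * en Q i k) x * g z * (u' * en Q k j) x' * S x z x') = 0 :=
      Finset.sum_eq_zero fun k _ => g3 k
    have z3 : ∑ k, Xi E F (fun x z x' =>
        (u * en Q k j) x * g z * (u' * en Q i k) x' * S x z x') = 0 :=
      Finset.sum_eq_zero fun k _ => g4 k
    rw [g1, g2, z2, z3, add_zero, sub_zero, sub_zero] at e4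
    have hfun : ∀ x z x', u x * g z * u' x' *
        (((1 - (Q x * Q x').trace) * P z i j -
        (Q x + Q x' - Q x * Q x' - Q x' * Q x) i j) * S x z x') =
        u x * (g * en P i j) z * u' x' * ((1 - (Q x * Q x').trace) * S x z x') -
        ((u * en Q i j) x * g z * u' x' * S x z x' + u x * g z * (u' * en Q i j) x' * S x z x' -
          (∑ k, (u * en Q i k) x * g z * (u' * en Q k j) x' * S x z x') -
          ∑ k, (u * en Q k j) x * g z * (u' * en Q i k) x' * S x z x') := by
      intro x z x'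
      have m1 : (Q x + Q x' - Q x * Q x' - Q x' * Q x) i j =
          Q x i j + Q x' i j - (∑ k, Q x i k * Q x' k j) - ∑ k, Q x' i k * Q x k j := by
        rw [Matrix.sub_apply, Matrix.sub_apply, Matrix.add_apply, mul_apply, mul_apply]
      have m2 : ∑ k, (u * en Q i k) x * g z * (u' * en Q k j) x' * S x z x' =
          u x * g z * u' x' * S x z x' * ∑ k, Q x i k * Q x' k j := by
        rw [Finset.mul_sum]
        refine Finset.sum_congr rfl fun k _ => ?_
        simp only [ContinuousMap.mul_apply, en_apply]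
        ring
      have m3 : ∑ k, (u * en Q k j) x * g z * (u' * en Q i k) x' * S x z x' =
          u x * g z * u' x' * S x z x' * ∑ k, Q x' i k * Q x k j := by
        rw [Finset.mul_sum]
        refine Finset.sum_congr rfl fun k _ => ?_
        simp only [ContinuousMap.mul_apply, en_apply]
        ring
      rw [m1, m2, m3]
      simp only [ContinuousMap.mul_apply, en_apply]
      ring
    have k2 : KI v Q P J C (fun x z x' =>
        u x * (g * en P i j) z * u' x' * ((1 - (Q x * Q x').trace) * S x z x') -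
        ((u * en Q i j) x * g z * u' x' * S x z x' + u x * g z * (u' * en Q i j) x' * S x z x' -
          (∑ k, (u * en Q i k) x * g z * (u' * en Q k j) x' * S x z x') -
          ∑ k, (u * en Q k j) x * g z * (u' * en Q i k) x' * S x z x')) :=
      k1.congr fun x z x' => (hfun x z x').symm
    have k3 := Xi_kill hp hq hE hF hC hcell hI k2 (ft_sub f2 (ft_sub (ft_sub t1 t2) t3))
    have k4 := Xi_sub E F f2 (ft_sub (ft_sub t1 t2) t3)
    rw [k3, e4, sub_zero] at k4
    exact k4.symm
  exact sw_all hPh hPi W hWc hW1 hWm g u u' hd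

end Vale.Agent.P092.H878.CW
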