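import Mathlib

/-!
P092, Project B, Theorem A (board #3258): Mathlib only tools (corner_split, Alg, Min, exists_min_fam, corner_fd, cov).
-/

namespace Vale.Agent.P092.H878

open scoped InnerProductSpace

section Tools

variable {H : Type*} [NormedAddCommGroup H] [InnerProductSpace ℂ H] [CompleteSpace H]

/-- orthogonal projection onto the closed linear span of `X` -/
noncomputable def pj (X : Set H) : H →L[ℂ] H :=
  ((Submodule.span ℂ X).topologicalClosure).starProjection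

theorem pj_proj (X : Set H) : IsStarProjection (pj X) := isStarProjection_starProjection

theorem pj_idem (X : Set H) : pj X * pj X = pj X := (pj_proj X).isIdempotentElem

theorem pj_star (X : Set H) : star (pj X) = pj X := (pj_proj X).isSelfAdjoint

theorem pj_apply_of_mem {X : Set H} {x : H} (hx : x ∈ X) : pj X x = x :=
  Submodule.starProjection_eq_self_iff.mpr
    (Submodule.le_topologicalClosure _ (Submodule.subset_span hx))

theorem pj_apply_mem (X : Set H) (x : H) : pj X x ∈ (Submodule.span ℂ X).topologicalClosure :=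
  Submodule.starProjection_apply_mem _ _

theorem mul_pj_eq {X : Set H} {S T : H →L[ℂ] H} (h : ∀ x ∈ X, S x = T x) :
    S * pj X = T * pj X := by
  have key : ∀ z ∈ (Submodule.span ℂ X).topologicalClosure, S z = T z := by
    intro z hz
    have hcl : IsClosed {z | S z = T z} := isClosed_eq S.continuous T.continuous
    have hsub : ((Submodule.span ℂ X : Submodule ℂ H) : Set H) ⊆ {z | S z = T z} := by
      intro w hw
      induction hw using Submodule.span_induction with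
      | mem x hx => exact h x hx
      | zero => simp
      | add x y _ _ hx hy => simp only [Set.mem_ofPred_eq] at hx hy ⊢; rw [map_add, map_add, hx, hy]
      | smul c x _ hx => simp only [Set.mem_ofPred_eq] at hx ⊢; rw [map_smul, map_smul, hx]
    exact closure_minimal hsub hcl hz
  ext y
  exact key _ (pj_apply_mem X y)

theorem fix_mul_pj {X : Set H} {S : H →L[ℂ] H} (h : ∀ x ∈ X, S x = x) : S * pj X = pj X := by
  have := mul_pj_eq (S := S) (T := 1) (X := X) (fun x hx => by simpa using h x hx)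
  simpa using this

theorem zero_mul_pj {X : Set H} {S : H →L[ℂ] H} (h : ∀ x ∈ X, S x = 0) : S * pj X = 0 := by
  have := mul_pj_eq (S := S) (T := 0) (X := X) (fun x hx => by simpa using h x hx)
  simpa using this

theorem pj_comm {X : Set H} {T : H →L[ℂ] H} (h1 : ∀ x ∈ X, pj X (T x) = T x)
    (h2 : ∀ x ∈ X, pj X ((star T) x) = (star T) x) : T * pj X = pj X * T := by
  have a1 : (pj X * T) * pj X = T * pj X := mul_pj_eq (fun x hx => h1 x hx)
  have a2 : (pj X * star T) * pj X = star T * pj X := mul_pj_eq (fun x hx => h2 x hx)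
  have a3 : pj X * T * pj X = pj X * T := by
    have := congrArg star a2
    rw [star_mul, star_mul, star_mul, star_star, pj_star, ← mul_assoc] at this
    exact this
  rw [← a1, a3]

/-- projection order facts -/
theorem proj_mul_comm_of_le {p q : H →L[ℂ] H} (hp : IsStarProjection p) (hq : IsStarProjection q)
    (h : p * q = q) : q * p = q := by
  have := congrArg star h
  rw [star_mul, hp.isSelfAdjoint.star_eq, hq.isSelfAdjoint.star_eq] at this
  exact this

theorem comm_posPart {z T : H →L[ℂ] H} (hz : IsSelfAdjoint z) (h : T * z = z * T) :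
    T * z⁺ = z⁺ * T := by
  have hc : Commute z T := h.symm
  have h2 := Commute.cfcₙ (𝕜 := ℝ) hc (by rw [hz.star_eq]; exact hc) (fun x => x⁺)
  rw [← CFC.posPart_def] at h2
  exact h2.symm

theorem comm_negPart {z T : H →L[ℂ] H} (hz : IsSelfAdjoint z) (h : T * z = z * T) :
    T * z⁻ = z⁻ * T := by
  have hc : Commute z T := h.symm
  have h2 := Commute.cfcₙ (𝕜 := ℝ) hc (by rw [hz.star_eq]; exact hc) (fun x => x⁻)
  rw [← CFC.negPart_def] at h2
  exact h2.symm

theorem mul_self_eq_zero' {a : H →L[ℂ] H} (h : star a * a = 0) : a = 0 :=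
  (CStarRing.star_mul_self_eq_zero_iff a).mp h

/-- scalar corner or a proper projection -/
theorem corner_split {e y : H →L[ℂ] H} (he : IsStarProjection e) (hy : IsSelfAdjoint y)
    (hey : e * y = y) (hns : ∀ c : ℂ, y ≠ c • e) :
    ∃ e' : H →L[ℂ] H, IsStarProjection e' ∧ e * e' = e' ∧ e' ≠ 0 ∧ e' ≠ e ∧
      ∀ T : H →L[ℂ] H, T * y = y * T → star T * y = y * star T → T * e = e * T →
        star T * e = e * star T → T * e' = e' * T := by
  have hye : y * e = y := by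
    have := congrArg star hey
    rw [star_mul, hy.star_eq, he.isSelfAdjoint.star_eq] at this
    exact this
  have hee : e * e = e := he.isIdempotentElem
  have hes : star e = e := he.isSelfAdjoint
  -- quadratic form values
  have hreal : ∀ ζ : H, ((⟪y ζ, ζ⟫_ℂ).re : ℂ) = ⟪y ζ, ζ⟫_ℂ := by
    intro ζ
    have h1 : ⟪y ζ, ζ⟫_ℂ = ⟪ζ, y ζ⟫_ℂ := by
      have := ContinuousLinearMap.adjoint_inner_left y ζ ζ
      rw [← ContinuousLinearMap.star_eq_adjoint, hy.star_eq] at this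
      exact this
    have h2 : (starRingEnd ℂ) ⟪y ζ, ζ⟫_ℂ = ⟪y ζ, ζ⟫_ℂ := by
      rw [inner_conj_symm, ← h1]
    exact Complex.conj_eq_iff_re.mp h2
  obtain ⟨ζ₁, ζ₂, h1, h2, hn1, hn2, hlt⟩ : ∃ ζ₁ ζ₂ : H, e ζ₁ = ζ₁ ∧ e ζ₂ = ζ₂ ∧ ‖ζ₁‖ = 1 ∧
      ‖ζ₂‖ = 1 ∧ (⟪y ζ₁, ζ₁⟫_ℂ).re < (⟪y ζ₂, ζ₂⟫_ℂ).re := by
    by_contra hcon
    push Not at hcon
    have hcon' : ∀ ζ₁ ζ₂ : H, e ζ₁ = ζ₁ → e ζ₂ = ζ₂ → ‖ζ₁‖ = 1 → ‖ζ₂‖ = 1 →
        (⟪y ζ₁, ζ₁⟫_ℂ).re = (⟪y ζ₂, ζ₂⟫_ℂ).re := fun a b c d f g =>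
      le_antisymm (hcon b a d c g f) (hcon a b c d f g)
    by_cases h0 : e = 0
    · exact hns 0 (by rw [← hey, h0]; simp)
    · obtain ⟨η, hη⟩ : ∃ η, e η ≠ 0 := by
        by_contra hc
        push Not at hc
        exact h0 (ContinuousLinearMap.ext hc)
      have hηn : ‖e η‖ ≠ 0 := norm_ne_zero_iff.mpr hη
      set ζ₀ : H := ((‖e η‖⁻¹ : ℝ) : ℂ) • e η with hζ₀
      have hζ₀e : e ζ₀ = ζ₀ := by
        rw [hζ₀, map_smul]
        congr 1
        exact DFunLike.congr_fun hee η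
      have hζ₀n : ‖ζ₀‖ = 1 := by
        rw [hζ₀, norm_smul, Complex.norm_real, Real.norm_eq_abs, abs_of_nonneg (by positivity),
          inv_mul_cancel₀ hηn]
      refine hns (((⟪y ζ₀, ζ₀⟫_ℂ).re : ℝ) : ℂ) ?_
      rw [← sub_eq_zero]
      have hlin : ((y - (((⟪y ζ₀, ζ₀⟫_ℂ).re : ℝ) : ℂ) • e : H →L[ℂ] H) : H →ₗ[ℂ] H) = 0 := by
        rw [← inner_map_self_eq_zero]
        intro ζ
        simp only [ContinuousLinearMap.coe_coe, sub_apply,
          smul_apply]
        rw [inner_sub_left, inner_smul_left, Complex.conj_ofReal]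
        have e1 : ⟪y ζ, ζ⟫_ℂ = ⟪y (e ζ), e ζ⟫_ℂ := by
          have a1 : y (e ζ) = y ζ := DFunLike.congr_fun hye ζ
          have a2 : e (y ζ) = y ζ := DFunLike.congr_fun hey ζ
          rw [a1]
          nth_rewrite 1 [← a2]
          have := ContinuousLinearMap.adjoint_inner_left e ζ (y ζ)
          rw [← ContinuousLinearMap.star_eq_adjoint, hes] at this
          exact this
        have e2 : ⟪e ζ, ζ⟫_ℂ = ⟪e ζ, e ζ⟫_ℂ := by
          have a1 : e (e ζ) = e ζ := DFunLike.congr_fun hee ζ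
          nth_rewrite 1 [← a1]
          have := ContinuousLinearMap.adjoint_inner_left e ζ (e ζ)
          rw [← ContinuousLinearMap.star_eq_adjoint, hes] at this
          exact this
        rw [e1, e2]
        by_cases hw : e ζ = 0
        · rw [hw]; simp
        · have hwn : ‖e ζ‖ ≠ 0 := norm_ne_zero_iff.mpr hw
          obtain ⟨ξ, hξ⟩ : ∃ ξ : H, ξ = ((‖e ζ‖⁻¹ : ℝ) : ℂ) • e ζ := ⟨_, rfl⟩
          have hξe : e ξ = ξ := by
            rw [hξ, map_smul]
            congr 1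
            exact DFunLike.congr_fun hee ζ
          have hξn : ‖ξ‖ = 1 := by
            rw [hξ, norm_smul, Complex.norm_real, Real.norm_eq_abs, abs_of_nonneg (by positivity),
              inv_mul_cancel₀ hwn]
          have hv := hcon' ξ ζ₀ hξe hζ₀e hξn hζ₀n
          have hback : e ζ = ((‖e ζ‖ : ℝ) : ℂ) • ξ := by
            rw [hξ, smul_smul, ← Complex.ofReal_mul, mul_inv_cancel₀ hwn]
            simp
          rw [← hv, hback, map_smul, inner_smul_left, inner_smul_right, inner_smul_left,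
            inner_smul_right, hreal ξ, inner_self_eq_norm_sq_to_K, hξn]
          simp
          ring
      ext ζ
      exact DFunLike.congr_fun hlin ζ
  set lam : ℝ := ((⟪y ζ₁, ζ₁⟫_ℂ).re + (⟪y ζ₂, ζ₂⟫_ℂ).re) / 2 with hlam
  set z : H →L[ℂ] H := y - (lam : ℂ) • e with hz
  have hzs : IsSelfAdjoint z := by
    rw [hz]
    refine hy.sub ?_
    rw [isSelfAdjoint_iff, star_smul, hes]
    simp
  have hval : ∀ ζ : H, e ζ = ζ → ‖ζ‖ = 1 → (⟪z ζ, ζ⟫_ℂ).re = (⟪y ζ, ζ⟫_ℂ).re - lam := by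
    intro ζ h hn
    rw [hz]
    simp only [sub_apply, smul_apply]
    rw [h, inner_sub_left, inner_smul_left, inner_self_eq_norm_sq_to_K, hn]
    simp
  have hdec : z⁺ - z⁻ = z := CFC.posPart_sub_negPart z hzs
  have hp0 : ∀ ζ : H, 0 ≤ (⟪z⁺ ζ, ζ⟫_ℂ).re := fun ζ =>
    ((ContinuousLinearMap.nonneg_iff_isPositive _).mp (CFC.posPart_nonneg z)).re_inner_nonneg_left ζ
  have hm0 : ∀ ζ : H, 0 ≤ (⟪z⁻ ζ, ζ⟫_ℂ).re := fun ζ =>
    ((ContinuousLinearMap.nonneg_iff_isPositive _).mp (CFC.negPart_nonneg z)).re_inner_nonneg_left ζ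
  have hsplit : ∀ ζ : H, (⟪z ζ, ζ⟫_ℂ).re = (⟪z⁺ ζ, ζ⟫_ℂ).re - (⟪z⁻ ζ, ζ⟫_ℂ).re := by
    intro ζ
    nth_rewrite 1 [← hdec]
    rw [sub_apply, inner_sub_left, Complex.sub_re]
  have hzp : z⁺ ≠ 0 := by
    intro h0
    have a := hsplit ζ₂
    rw [h0, hval ζ₂ h2 hn2] at a
    simp only [zero_apply, inner_zero_left, Complex.zero_re, zero_sub] at a
    have := hm0 ζ₂
    linarith
  have hzm : z⁻ ≠ 0 := by
    intro h0
    have a := hsplit ζ₁
    rw [h0, hval ζ₁ h1 hn1] at a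
    simp only [zero_apply, inner_zero_left, Complex.zero_re, sub_zero] at a
    have := hp0 ζ₁
    linarith
  have hze : z * e = z := by
    rw [hz, sub_mul, smul_mul_assoc, hee, hye]
  have hez : e * z = z := by
    rw [hz, mul_sub, mul_smul_comm, hee, hey]
  have hpm : z⁺ * z⁻ = 0 := CFC.posPart_mul_negPart z
  have hmp : z⁻ * z⁺ = 0 := CFC.negPart_mul_posPart z
  have hsp : star (z⁺) = z⁺ := (IsSelfAdjoint.of_nonneg (CFC.posPart_nonneg z)).star_eq
  have hsm : star (z⁻) = z⁻ := (IsSelfAdjoint.of_nonneg (CFC.negPart_nonneg z)).star_eq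
  have hpe : z⁺ * e = z⁺ := by
    have a : z⁺ * z = z⁺ * z⁺ := by
      nth_rewrite 2 [← hdec]
      rw [mul_sub, hpm, sub_zero]
    have b : z⁺ * z⁺ * (1 - e) = 0 := by
      rw [← a, mul_assoc, mul_sub, mul_one, hze, sub_self, mul_zero]
    have c : star (z⁺ * (1 - e)) * (z⁺ * (1 - e)) = 0 := by
      rw [star_mul, hsp, mul_assoc, ← mul_assoc z⁺ z⁺, b, mul_zero]
    have d := mul_self_eq_zero' c
    rw [mul_sub, mul_one, sub_eq_zero] at d
    exact d.symm
  have hme : z⁻ * e = z⁻ := by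
    have : z⁻ = z⁺ - z := (sub_eq_of_eq_add' (sub_eq_iff_eq_add.mp hdec)).symm
    rw [this, sub_mul, hpe, hze]
  refine ⟨pj (Set.range (fun η => (z⁺ : H →L[ℂ] H) η)), pj_proj _, ?_, ?_, ?_, ?_⟩
  · apply fix_mul_pj
    rintro _ ⟨η, rfl⟩
    have : e * z⁺ = z⁺ := by
      have := congrArg star hpe
      rw [star_mul, hsp, hes] at this
      exact this
    exact DFunLike.congr_fun this η
  · intro h0
    apply hzp
    ext η
    have := pj_apply_of_mem (X := Set.range (fun η => (z⁺ : H →L[ℂ] H) η)) ⟨η, rfl⟩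
    rw [h0] at this
    simpa using this.symm
  · intro h0
    apply hzm
    have : z⁻ * pj (Set.range (fun η => (z⁺ : H →L[ℂ] H) η)) = 0 := by
      apply zero_mul_pj
      rintro _ ⟨η, rfl⟩
      exact DFunLike.congr_fun hmp η
    rw [h0, hme] at this
    exact this
  · intro T hT hT' hTe hTe'
    have hTz : T * z = z * T := by
      rw [hz, mul_sub, sub_mul, hT, mul_smul_comm, smul_mul_assoc, hTe]
    have hTz' : star T * z = z * star T := by
      rw [hz, mul_sub, sub_mul, hT', mul_smul_comm, smul_mul_assoc, hTe']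
    have k1 := comm_posPart hzs hTz
    have k2 := comm_posPart hzs hTz'
    apply pj_comm
    · rintro _ ⟨η, rfl⟩
      apply pj_apply_of_mem
      exact ⟨T η, (DFunLike.congr_fun k1 η).symm⟩
    · rintro _ ⟨η, rfl⟩
      apply pj_apply_of_mem
      exact ⟨(star T) η, (DFunLike.congr_fun k2 η).symm⟩


/-! ### algebras that are directed unions of commutants -/

/-- a set of operators which is a directed union of commutants of star-closed sets -/
structure Alg (𝒜 : Set (H →L[ℂ] H)) : Prop where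
  one : (1 : H →L[ℂ] H) ∈ 𝒜
  dir : ∀ x ∈ 𝒜, ∀ y ∈ 𝒜, ∃ 𝒯 : Set (H →L[ℂ] H), (∀ t ∈ 𝒯, star t ∈ 𝒯) ∧
    (∀ t ∈ 𝒯, t * x = x * t) ∧ (∀ t ∈ 𝒯, t * y = y * t) ∧
    ∀ z : H →L[ℂ] H, (∀ t ∈ 𝒯, t * z = z * t) → z ∈ 𝒜

namespace Alg

variable {𝒜 : Set (H →L[ℂ] H)}

theorem mul_mem (hA : Alg 𝒜) {x y : H →L[ℂ] H} (hx : x ∈ 𝒜) (hy : y ∈ 𝒜) : x * y ∈ 𝒜 := by
  obtain ⟨𝒯, _, h1, h2, h3⟩ := hA.dir x hx y hy
  refine h3 _ fun t ht => ?_
  rw [← mul_assoc, h1 t ht, mul_assoc, h2 t ht, mul_assoc]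

theorem add_mem (hA : Alg 𝒜) {x y : H →L[ℂ] H} (hx : x ∈ 𝒜) (hy : y ∈ 𝒜) : x + y ∈ 𝒜 := by
  obtain ⟨𝒯, _, h1, h2, h3⟩ := hA.dir x hx y hy
  refine h3 _ fun t ht => ?_
  rw [mul_add, add_mul, h1 t ht, h2 t ht]

theorem sub_mem (hA : Alg 𝒜) {x y : H →L[ℂ] H} (hx : x ∈ 𝒜) (hy : y ∈ 𝒜) : x - y ∈ 𝒜 := by
  obtain ⟨𝒯, _, h1, h2, h3⟩ := hA.dir x hx y hy
  refine h3 _ fun t ht => ?_
  rw [mul_sub, sub_mul, h1 t ht, h2 t ht]

theorem smul_mem (hA : Alg 𝒜) {x : H →L[ℂ] H} (hx : x ∈ 𝒜) (c : ℂ) : c • x ∈ 𝒜 := by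
  obtain ⟨𝒯, _, h1, h2, h3⟩ := hA.dir x hx x hx
  refine h3 _ fun t ht => ?_
  rw [mul_smul_comm, smul_mul_assoc, h1 t ht]

theorem zero_mem (hA : Alg 𝒜) : (0 : H →L[ℂ] H) ∈ 𝒜 := by
  have := hA.smul_mem hA.one 0
  rwa [zero_smul] at this

theorem sum_mem (hA : Alg 𝒜) {ι : Type*} (s : Finset ι) (f : ι → H →L[ℂ] H)
    (h : ∀ i ∈ s, f i ∈ 𝒜) : ∑ i ∈ s, f i ∈ 𝒜 := by
  classical
  induction s using Finset.induction_on with
  | empty => simpa using hA.zero_mem
  | insert a s ha ih =>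
    rw [Finset.sum_insert ha]
    exact hA.add_mem (h _ (Finset.mem_insert_self _ _))
      (ih fun i hi => h i (Finset.mem_insert_of_mem hi))

theorem star_mem (hA : Alg 𝒜) {x : H →L[ℂ] H} (hx : x ∈ 𝒜) : star x ∈ 𝒜 := by
  obtain ⟨𝒯, h0, h1, h2, h3⟩ := hA.dir x hx x hx
  refine h3 _ fun t ht => ?_
  have := congrArg star (h1 _ (h0 t ht))
  rw [star_mul, star_mul, star_star] at this
  exact this.symm

end Alg

/-- minimal projection of `𝒜` -/
structure Min (𝒜 : Set (H →L[ℂ] H)) (e : H →L[ℂ] H) : Prop where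
  proj : IsStarProjection e
  ne : e ≠ 0
  mem : e ∈ 𝒜
  min : ∀ y ∈ 𝒜, ∃ c : ℂ, e * y * e = c • e

theorem isSelfAdjoint_corner {e y : H →L[ℂ] H} (he : IsStarProjection e) (hy : IsSelfAdjoint y) :
    IsSelfAdjoint (e * y * e) := by
  rw [isSelfAdjoint_iff, star_mul, star_mul, hy.star_eq, he.isSelfAdjoint.star_eq, mul_assoc]

theorem min_of_no_sub {𝒜 : Set (H →L[ℂ] H)} (hA : Alg 𝒜) {e : H →L[ℂ] H}
    (he : IsStarProjection e) (hne : e ≠ 0) (hm : e ∈ 𝒜)
    (h : ∀ f : H →L[ℂ] H, IsStarProjection f → f ∈ 𝒜 → e * f = f → f = 0 ∨ f = e) :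
    Min 𝒜 e := by
  have hee : e * e = e := he.isIdempotentElem
  have key : ∀ y ∈ 𝒜, IsSelfAdjoint y → ∃ c : ℂ, e * y * e = c • e := by
    intro y hy hys
    by_contra hcon
    push Not at hcon
    obtain ⟨f, hf, hef, hf0, hfe, hfc⟩ := corner_split he (isSelfAdjoint_corner he hys)
      (by rw [← mul_assoc, ← mul_assoc, hee]) hcon
    have hmy : e * y * e ∈ 𝒜 := hA.mul_mem (hA.mul_mem hm hy) hm
    obtain ⟨𝒯, h0, h1, h2, h3⟩ := hA.dir _ hmy e hm
    have hfm : f ∈ 𝒜 := h3 _ fun t ht =>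
      hfc t (h1 t ht) (h1 _ (h0 t ht)) (h2 t ht) (h2 _ (h0 t ht))
    rcases h f hf hfm hef with h4 | h4
    · exact hf0 h4
    · exact hfe h4
  refine ⟨he, hne, hm, fun y hy => ?_⟩
  have hys := hA.star_mem hy
  have s1 : IsSelfAdjoint (y + star y) := by
    rw [isSelfAdjoint_iff, star_add, star_star, add_comm]
  have s2 : IsSelfAdjoint (Complex.I • (y - star y)) := by
    rw [isSelfAdjoint_iff, star_smul, star_sub, star_star]
    simp only [RCLike.star_def, Complex.conj_I]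
    rw [neg_smul, ← smul_neg, neg_sub]
  obtain ⟨c1, hc1⟩ := key _ (hA.add_mem hy hys) s1
  obtain ⟨c2, hc2⟩ := key _ (hA.smul_mem (hA.sub_mem hy hys) Complex.I) s2
  refine ⟨(1/2 : ℂ) * c1 + (-Complex.I/2) * c2, ?_⟩
  have hy2 : y = (1/2 : ℂ) • (y + star y) + (-Complex.I/2 : ℂ) • (Complex.I • (y - star y)) := by
    rw [smul_smul]
    have : (-Complex.I/2 : ℂ) * Complex.I = 1/2 := by
      have := Complex.I_mul_I
      linear_combination (-1/2 : ℂ) * this
    rw [this, ← smul_add]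
    have : y + star y + (y - star y) = (2:ℂ) • y := by rw [two_smul]; abel
    rw [this, smul_smul]
    norm_num
  conv_lhs => rw [hy2]
  rw [mul_add, add_mul, mul_smul_comm, smul_mul_assoc, hc1, mul_smul_comm, smul_mul_assoc, hc2,
    smul_smul, smul_smul, add_smul]

theorem Min.dich {𝒜 : Set (H →L[ℂ] H)} {e c : H →L[ℂ] H} (he : Min 𝒜 e)
    (hc : IsStarProjection c) (hcm : c ∈ 𝒜) (hce : c * e = e * c) : c * e = e ∨ c * e = 0 := by
  obtain ⟨a, ha⟩ := he.min c hcm
  have hee : e * e = e := he.proj.isIdempotentElem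
  have hcc : c * c = c := hc.isIdempotentElem
  have h1 : c * e = a • e := by
    rw [← ha, ← hce, mul_assoc, hee]
  have h2 : (c * e) * (c * e) = c * e := by
    rw [mul_assoc, ← mul_assoc e c e, ← hce, mul_assoc c e e, hee, ← mul_assoc, hcc]
  rw [h1, smul_mul_smul_comm, hee] at h2
  have h3 : (a * a - a) • e = 0 := by rw [sub_smul, h2, sub_self]
  rcases smul_eq_zero.mp h3 with h | h
  · have : a * (a - 1) = 0 := by linear_combination h
    rcases mul_eq_zero.mp this with h | h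
    · right; rw [h1, h, zero_smul]
    · left; rw [h1, sub_eq_zero.mp h, one_smul]
  · exact absurd h he.ne

/-- orthogonal families of nonzero projections of `𝒜` under `e` -/
structure Fam (𝒜 : Set (H →L[ℂ] H)) (e : H →L[ℂ] H) {n : ℕ} (g : Fin n → H →L[ℂ] H) : Prop where
  proj : ∀ i, IsStarProjection (g i)
  ne : ∀ i, g i ≠ 0
  mem : ∀ i, g i ∈ 𝒜
  le : ∀ i, e * g i = g i
  orth : ∀ i j, i ≠ j → g i * g j = 0

def Bd (𝒜 : Set (H →L[ℂ] H)) (e : H →L[ℂ] H) : Prop :=
  ∃ N : ℕ, ∀ (n : ℕ) (g : Fin n → H →L[ℂ] H), Fam 𝒜 e g → n ≤ N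

theorem Bd.mono {𝒜 : Set (H →L[ℂ] H)} {e f : H →L[ℂ] H} (h : Bd 𝒜 e) (hef : e * f = f) :
    Bd 𝒜 f := by
  obtain ⟨N, hN⟩ := h
  refine ⟨N, fun n g hg => hN n g ⟨hg.proj, hg.ne, hg.mem, fun i => ?_, hg.orth⟩⟩
  rw [← hg.le i, ← mul_assoc, hef]

theorem exists_max {𝒜 : Set (H →L[ℂ] H)} {e : H →L[ℂ] H} (h : Bd 𝒜 e) :
    ∃ (n : ℕ) (g : Fin n → H →L[ℂ] H), Fam 𝒜 e g ∧
      ∀ (m : ℕ) (g' : Fin m → H →L[ℂ] H), Fam 𝒜 e g' → m ≤ n := by
  classical
  obtain ⟨N, hN⟩ := h
  let P : ℕ → Prop := fun n => ∃ g : Fin n → H →L[ℂ] H, Fam 𝒜 e g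
  have hP0 : P 0 := ⟨fun i => i.elim0, ⟨fun i => i.elim0, fun i => i.elim0, fun i => i.elim0,
    fun i => i.elim0, fun i => i.elim0⟩⟩
  have h1 : P (Nat.findGreatest P N) := Nat.findGreatest_spec (P := P) (Nat.zero_le N) hP0
  obtain ⟨g, hg⟩ := h1
  refine ⟨_, g, hg, fun m g' hg' => ?_⟩
  exact Nat.le_findGreatest (hN m g' hg') ⟨g', hg'⟩

theorem fam_cons {𝒜 : Set (H →L[ℂ] H)} {e : H →L[ℂ] H} {n : ℕ} {g : Fin n → H →L[ℂ] H}
    (hg : Fam 𝒜 e g) {f : H →L[ℂ] H} (hf : IsStarProjection f) (hf0 : f ≠ 0) (hfm : f ∈ 𝒜)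
    (hef : e * f = f) (ho : ∀ i, f * g i = 0) : Fam 𝒜 e (Fin.cons f g : Fin (n+1) → H →L[ℂ] H) := by
  have ho' : ∀ i, g i * f = 0 := by
    intro i
    have := congrArg star (ho i)
    rw [star_mul, (hg.proj i).isSelfAdjoint.star_eq, hf.isSelfAdjoint.star_eq, star_zero] at this
    exact this
  refine ⟨fun i => ?_, fun i => ?_, fun i => ?_, fun i => ?_, fun i j => ?_⟩
  · refine Fin.cases ?_ (fun j => ?_) i <;> simp [hf, hg.proj]
  · refine Fin.cases ?_ (fun j => ?_) i <;> simp [hf0, hg.ne]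
  · refine Fin.cases ?_ (fun j => ?_) i <;> simp [hfm, hg.mem]
  · refine Fin.cases ?_ (fun j => ?_) i <;> simp [hef, hg.le]
  · refine Fin.cases ?_ (fun i' => ?_) i
    · refine Fin.cases ?_ (fun j' => ?_) j
      · intro h; exact absurd rfl h
      · intro _; simp [ho]
    · refine Fin.cases ?_ (fun j' => ?_) j
      · intro _; simp [ho']
      · intro h; simp only [Fin.cons_succ]
        exact hg.orth _ _ fun h' => h (by rw [h'])

theorem fam_update {𝒜 : Set (H →L[ℂ] H)} {e : H →L[ℂ] H} {n : ℕ} {g : Fin n → H →L[ℂ] H}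
    (hg : Fam 𝒜 e g) (i : Fin n) {f : H →L[ℂ] H} (hf : IsStarProjection f) (hf0 : f ≠ 0)
    (hfm : f ∈ 𝒜) (hgf : g i * f = f) :
    Fam 𝒜 e (Function.update g i f) := by
  classical
  have hfg : f * g i = f := proj_mul_comm_of_le (hg.proj i) hf hgf
  have hef : e * f = f := by rw [← hgf, ← mul_assoc, hg.le i]
  have o1 : ∀ j, j ≠ i → f * g j = 0 := fun j hj => by
    rw [← hfg, mul_assoc, hg.orth i j hj.symm, mul_zero]
  have o2 : ∀ j, j ≠ i → g j * f = 0 := fun j hj => by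
    rw [← hgf, ← mul_assoc, hg.orth j i hj, zero_mul]
  refine ⟨fun j => ?_, fun j => ?_, fun j => ?_, fun j => ?_, fun j k => ?_⟩
  · by_cases h : j = i
    · subst h; simpa using hf
    · rw [Function.update_of_ne h]; exact hg.proj j
  · by_cases h : j = i
    · subst h; simpa using hf0
    · rw [Function.update_of_ne h]; exact hg.ne j
  · by_cases h : j = i
    · subst h; simpa using hfm
    · rw [Function.update_of_ne h]; exact hg.mem j
  · by_cases h : j = i
    · subst h; simpa using hef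
    · rw [Function.update_of_ne h]; exact hg.le j
  · intro hjk
    by_cases h : j = i
    · subst h
      rw [Function.update_self, Function.update_of_ne hjk.symm]
      exact o1 k hjk.symm
    · by_cases h' : k = i
      · subst h'
        rw [Function.update_self, Function.update_of_ne h]
        exact o2 j h
      · rw [Function.update_of_ne h, Function.update_of_ne h']
        exact hg.orth j k hjk

theorem sub_proj {p q : H →L[ℂ] H} (hp : IsStarProjection p) (hq : IsStarProjection q)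
    (h : p * q = q) : IsStarProjection (p - q) := by
  have h' := proj_mul_comm_of_le hp hq h
  refine ⟨?_, hp.isSelfAdjoint.sub hq.isSelfAdjoint⟩
  unfold IsIdempotentElem
  rw [mul_sub, sub_mul, sub_mul, h, h', hp.isIdempotentElem.eq, hq.isIdempotentElem.eq]
  abel

/-- maximal families consist of minimal projections and sum up to `e` -/
theorem exists_min_fam {𝒜 : Set (H →L[ℂ] H)} (hA : Alg 𝒜) {e : H →L[ℂ] H}
    (he : IsStarProjection e) (hm : e ∈ 𝒜) (hb : Bd 𝒜 e) :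
    ∃ (n : ℕ) (g : Fin n → H →L[ℂ] H), Fam 𝒜 e g ∧ (∀ i, Min 𝒜 (g i)) ∧ ∑ i, g i = e := by
  classical
  obtain ⟨n, g, hg, hmax⟩ := exists_max hb
  refine ⟨n, g, hg, fun i => ?_, ?_⟩
  · apply min_of_no_sub hA (hg.proj i) (hg.ne i) (hg.mem i)
    intro f hf hfm hgf
    by_contra hcon
    push Not at hcon
    have hfg : f * g i = f := proj_mul_comm_of_le (hg.proj i) hf hgf
    have h1 := fam_update hg i hf hcon.1 hfm hgf
    have hd : IsStarProjection (g i - f) := sub_proj (hg.proj i) hf hgf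
    have h2 : Fam 𝒜 e (Fin.cons (g i - f) (Function.update g i f) :
        Fin (n+1) → H →L[ℂ] H) := by
      apply fam_cons h1 hd (sub_ne_zero.mpr hcon.2.symm) (hA.sub_mem (hg.mem i) hfm)
      · rw [mul_sub, hg.le i]
        congr 1
        rw [← hgf, ← mul_assoc, hg.le i]
      · intro j
        by_cases h : j = i
        · subst h
          rw [Function.update_self, sub_mul, hgf, hf.isIdempotentElem.eq, sub_self]
        · rw [Function.update_of_ne h, sub_mul, hg.orth i j (Ne.symm h), ← hfg, mul_assoc,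
            hg.orth i j (Ne.symm h), mul_zero, sub_zero]
    have := hmax _ _ h2
    omega
  · by_contra hcon
    have hsum : IsStarProjection (∑ i, g i) := by
      refine ⟨?_, ?_⟩
      · unfold IsIdempotentElem
        rw [Finset.sum_mul_sum]
        refine Finset.sum_congr rfl fun i _ => ?_
        rw [Finset.sum_eq_single i]
        · exact (hg.proj i).isIdempotentElem
        · intro j _ hj; exact hg.orth i j (Ne.symm hj)
        · intro h; exact absurd (Finset.mem_univ i) h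
      · rw [isSelfAdjoint_iff, star_sum]
        exact Finset.sum_congr rfl fun i _ => (hg.proj i).isSelfAdjoint.star_eq
    have hle : e * (∑ i, g i) = ∑ i, g i := by
      rw [Finset.mul_sum]
      exact Finset.sum_congr rfl fun i _ => hg.le i
    have h2 : Fam 𝒜 e (Fin.cons (e - ∑ i, g i) g : Fin (n+1) → H →L[ℂ] H) := by
      apply fam_cons hg (sub_proj he hsum hle) (sub_ne_zero.mpr (Ne.symm hcon))
        (hA.sub_mem hm (hA.sum_mem _ _ fun i _ => hg.mem i))
      · rw [mul_sub, he.isIdempotentElem.eq, hle]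
      · intro j
        rw [sub_mul, hg.le j, Finset.sum_mul, Finset.sum_eq_single j]
        · rw [(hg.proj j).isIdempotentElem.eq, sub_self]
        · intro k _ hk; exact hg.orth k j hk
        · intro h; exact absurd (Finset.mem_univ j) h
    have := hmax _ _ h2
    omega

theorem exists_min {𝒜 : Set (H →L[ℂ] H)} (hA : Alg 𝒜) {e : H →L[ℂ] H}
    (he : IsStarProjection e) (hne : e ≠ 0) (hm : e ∈ 𝒜) (hb : Bd 𝒜 e) :
    ∃ f, Min 𝒜 f ∧ e * f = f := by
  obtain ⟨n, g, hg, hmin, hsum⟩ := exists_min_fam hA he hm hb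
  rcases Nat.eq_zero_or_pos n with h | h
  · subst h
    exact absurd (by rw [← hsum]; simp) hne
  · exact ⟨g ⟨0, h⟩, hmin _, hg.le _⟩

/-- finite dimensionality of a bounded corner -/
theorem corner_fd {𝒜 : Set (H →L[ℂ] H)} (hA : Alg 𝒜) {e : H →L[ℂ] H}
    (he : IsStarProjection e) (hm : e ∈ 𝒜) (hb : Bd 𝒜 e) :
    ∃ s : Finset (H →L[ℂ] H), (∀ x ∈ s, x ∈ 𝒜) ∧
      ∀ y ∈ 𝒜, e * y * e ∈ Submodule.span ℂ (s : Set (H →L[ℂ] H)) := by
  classical
  obtain ⟨n, g, hg, hmin, hsum⟩ := exists_min_fam hA he hm hb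
  let v : Fin n × Fin n → H →L[ℂ] H := fun p =>
    if h : ∃ y ∈ 𝒜, g p.1 * y * g p.2 ≠ 0 then g p.1 * h.choose * g p.2 else 0
  refine ⟨Finset.univ.image v, ?_, ?_⟩
  · intro x hx
    obtain ⟨p, _, rfl⟩ := Finset.mem_image.mp hx
    by_cases h : ∃ y ∈ 𝒜, g p.1 * y * g p.2 ≠ 0
    · simp only [v, dif_pos h]
      exact hA.mul_mem (hA.mul_mem (hg.mem _) h.choose_spec.1) (hg.mem _)
    · simp only [v, dif_neg h]
      exact hA.zero_mem
  · intro y hy
    have hexp : e * y * e = ∑ i, ∑ j, g i * y * g j := by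
      rw [← hsum, Finset.sum_mul, Finset.sum_mul]
      exact Finset.sum_congr rfl fun i _ => by rw [Finset.mul_sum]
    rw [hexp]
    refine Submodule.sum_mem _ fun i _ => Submodule.sum_mem _ fun j _ => ?_
    by_cases h : ∃ y ∈ 𝒜, g i * y * g j ≠ 0
    · have hv : v (i, j) = g i * h.choose * g j := by simp only [v, dif_pos h]
      have hvne : v (i, j) ≠ 0 := by rw [hv]; exact h.choose_spec.2
      have hvm : v (i, j) ∈ 𝒜 := by
        rw [hv]; exact hA.mul_mem (hA.mul_mem (hg.mem _) h.choose_spec.1) (hg.mem _)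
      have hgi : g i * g i = g i := (hg.proj i).isIdempotentElem
      have hgj : g j * g j = g j := (hg.proj j).isIdempotentElem
      have hgis : star (g i) = g i := (hg.proj i).isSelfAdjoint.star_eq
      have hgjs : star (g j) = g j := (hg.proj j).isSelfAdjoint.star_eq
      have hgv : g i * v (i, j) = v (i, j) := by rw [hv, ← mul_assoc, ← mul_assoc, hgi]
      have hvg : v (i, j) * g j = v (i, j) := by rw [hv, mul_assoc, hgj]
      have hvs : star (v (i, j)) * g i = star (v (i, j)) := by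
        have := congrArg star hgv
        rwa [star_mul, hgis] at this
      have hvs' : g j * star (v (i, j)) = star (v (i, j)) := by
        have := congrArg star hvg
        rwa [star_mul, hgjs] at this
      obtain ⟨c1, hc1⟩ := (hmin i).min (v (i, j) * star (v (i, j)))
        (hA.mul_mem hvm (hA.star_mem hvm))
      obtain ⟨c2, hc2⟩ := (hmin j).min (star (v (i, j)) * (g i * y * g j))
        (hA.mul_mem (hA.star_mem hvm) (hA.mul_mem (hA.mul_mem (hg.mem _) hy) (hg.mem _)))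
      have k1 : v (i, j) * star (v (i, j)) = c1 • g i := by
        rw [← hc1, ← mul_assoc, hgv, mul_assoc, hvs]
      have k2 : star (v (i, j)) * (g i * y * g j) = c2 • g j := by
        rw [← hc2, ← mul_assoc (g j) (star (v (i, j))), hvs', mul_assoc (star (v (i, j))),
          mul_assoc (g i * y), hgj]
      have hc1ne : c1 ≠ 0 := by
        intro h0
        rw [h0, zero_smul] at k1
        exact hvne (by
          have := (CStarRing.mul_star_self_eq_zero_iff (v (i, j))).mp k1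
          exact this)
      have k3 : c1 • (g i * y * g j) = c2 • v (i, j) := by
        have : v (i, j) * (star (v (i, j)) * (g i * y * g j)) = c2 • v (i, j) := by
          rw [k2, mul_smul_comm, hvg]
        rw [← this, ← mul_assoc, k1, smul_mul_assoc, ← mul_assoc, ← mul_assoc, hgi]
      have k4 : g i * y * g j = (c1⁻¹ * c2) • v (i, j) := by
        rw [mul_smul, ← k3, smul_smul, inv_mul_cancel₀ hc1ne, one_smul]
      rw [k4]
      exact Submodule.smul_mem _ _ (Submodule.subset_span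
        (Finset.mem_coe.mpr (Finset.mem_image.mpr ⟨(i, j), Finset.mem_univ _, rfl⟩)))
    · have : g i * y * g j = 0 := by
        by_contra hc
        exact h ⟨y, hy, hc⟩
      rw [this]
      exact Submodule.zero_mem _

/-! ### covers -/

/-- projection onto the closed span of `𝒜 e H` -/
noncomputable def cov (𝒜 : Set (H →L[ℂ] H)) (e : H →L[ℂ] H) : H →L[ℂ] H :=
  pj {v | ∃ y ∈ 𝒜, ∃ η, v = y (e η)}

theorem cov_proj (𝒜 : Set (H →L[ℂ] H)) (e : H →L[ℂ] H) : IsStarProjection (cov 𝒜 e) := pj_proj _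

theorem cov_apply {𝒜 : Set (H →L[ℂ] H)} {e y : H →L[ℂ] H} (hy : y ∈ 𝒜) (η : H) :
    cov 𝒜 e (y (e η)) = y (e η) := pj_apply_of_mem ⟨y, hy, η, rfl⟩

theorem cov_mul {𝒜 : Set (H →L[ℂ] H)} {e y : H →L[ℂ] H} (hy : y ∈ 𝒜) :
    cov 𝒜 e * (y * e) = y * e := by
  ext η
  exact cov_apply hy η

/-- if `T` maps `𝒜 e` into `𝒜 e T` (both for `T` and `T*`) then `T` commutes with the cover -/
theorem cov_comm {𝒜 : Set (H →L[ℂ] H)} {e T : H →L[ℂ] H}
    (h1 : ∀ y ∈ 𝒜, ∃ y' ∈ 𝒜, ∃ T' : H →L[ℂ] H, T * (y * e) = y' * (e * T'))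
    (h2 : ∀ y ∈ 𝒜, ∃ y' ∈ 𝒜, ∃ T' : H →L[ℂ] H, star T * (y * e) = y' * (e * T')) :
    T * cov 𝒜 e = cov 𝒜 e * T := by
  apply pj_comm
  · rintro _ ⟨y, hy, η, rfl⟩
    obtain ⟨y', hy', T', h⟩ := h1 y hy
    have : T (y (e η)) = y' (e (T' η)) := DFunLike.congr_fun h η
    rw [this]
    exact cov_apply hy' _
  · rintro _ ⟨y, hy, η, rfl⟩
    obtain ⟨y', hy', T', h⟩ := h2 y hy
    have : (star T) (y (e η)) = y' (e (T' η)) := DFunLike.congr_fun h η
    rw [this]
    exact cov_apply hy' _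

theorem cov_comm_mem {𝒜 : Set (H →L[ℂ] H)} (hA : Alg 𝒜) {e T : H →L[ℂ] H} (hT : T ∈ 𝒜) :
    T * cov 𝒜 e = cov 𝒜 e * T :=
  cov_comm (fun y hy => ⟨T * y, hA.mul_mem hT hy, 1, by rw [mul_one, mul_assoc]⟩)
    (fun y hy => ⟨star T * y, hA.mul_mem (hA.star_mem hT) hy, 1, by rw [mul_one, mul_assoc]⟩)

/-- elements commuting with `𝒜` are determined on the cover of `e` by their corner -/
theorem cov_eq {𝒜 : Set (H →L[ℂ] H)} {e k k' : H →L[ℂ] H} (hk : ∀ y ∈ 𝒜, y * k = k * y)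
    (hk' : ∀ y ∈ 𝒜, y * k' = k' * y) (h : k * e = k' * e) :
    k * cov 𝒜 e = k' * cov 𝒜 e := by
  apply mul_pj_eq
  rintro _ ⟨y, hy, η, rfl⟩
  have e1 : k * (y * e) = k' * (y * e) := by
    rw [← mul_assoc, ← hk y hy, mul_assoc, h, ← mul_assoc, hk' y hy, mul_assoc]
  exact DFunLike.congr_fun e1 η

theorem cov_le {𝒜 : Set (H →L[ℂ] H)} (hA : Alg 𝒜) {e : H →L[ℂ] H} : cov 𝒜 e * e = e := by
  have := cov_mul (e := e) hA.one
  rwa [one_mul] at this

theorem cov_zero {𝒜 : Set (H →L[ℂ] H)} {e k : H →L[ℂ] H} (hk : ∀ y ∈ 𝒜, y * k = k * y)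
    (h : k * e = 0) : k * cov 𝒜 e = 0 := by
  have := cov_eq (k' := 0) hk (by simp) (by rw [h, zero_mul])
  rwa [zero_mul] at this

theorem cov_one {𝒜 : Set (H →L[ℂ] H)} {e k : H →L[ℂ] H} (hk : ∀ y ∈ 𝒜, y * k = k * y)
    (h : k * e = e) : k * cov 𝒜 e = cov 𝒜 e := by
  have := cov_eq (k' := 1) hk (by simp) (by rw [h, one_mul])
  rwa [one_mul] at this

end Tools

end Vale.Agent.P092.H878
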